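/-
P327 (rigidity of the Turing degrees): shared definitions.
-/
import Mathlib

namespace Vale.Agent.P327

/-- Reals, i.e. characteristic functions of sets of natural numbers. -/
abbrev S := ℕ → Bool

/-- The total 0-1 oracle attached to a real. -/
def chi (A : S) : ℕ →. ℕ := fun n => Part.some (if A n then 1 else 0)

/-- Mathlib's Turing reducibility of the characteristic functions. -/
def Le (A B : S) : Prop := TuringReducible (chi A) (chi B)

/-- The first `n` bits. -/
def pref (X : S) (n : ℕ) : List Bool := (List.range n).map X

/-- Cylinder of all reals extending a finite string. -/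
def cyl (s : List Bool) : Set S := {X | pref X s.length = s}

/-- A computable monotone family of finite approximations. -/
structure Fn where
  val : List Bool → ℕ → Option Bool
  mono : ∀ ⦃s t : List Bool⦄, s <+: t → ∀ ⦃n b⦄, val s n = some b → val t n = some b
  computable_val : Computable₂ val

/-- `φ` with oracle `Y` is total with value `X`. -/
def Out (φ : Fn) (Y X : S) : Prop := ∀ n, ∃ m, φ.val (pref Y m) n = some (X n)

/-- Reducibility by functionals; equal to `Le` (file `Bridge`). -/
def Red (X Y : S) : Prop := ∃ φ : Fn, Out φ Y X

/-- Mutual reducibility. -/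
def Equiv' (X Y : S) : Prop := Red X Y ∧ Red Y X

open Classical in
/-- The value of a functional, completed by `false`. -/
noncomputable def ev (φ : Fn) (Y : S) : S := fun n => decide (∃ m, φ.val (pref Y m) n = some true)

/-- Recursive join. -/
def join (A B : S) : S := fun n => if n % 2 = 0 then A (n / 2) else B (n / 2)

/-- Column `m`. -/
def col (C : S) (m : ℕ) : S := fun t => C (Nat.pair m t)

/-- Column switch: column `m` is taken from the even half of `C` if `Y m`, else from the odd half. -/
def sel (Y C : S) : S := fun p => if Y (Nat.unpair p).1 then C (2 * p) else C (2 * p + 1)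

/-- `F` and `G` are lifts of an automorphism of the degrees and of its inverse. -/
structure IsAuto (F G : S → S) : Prop where
  mapF : ∀ A B, Red (F A) (F B) ↔ Red A B
  mapG : ∀ A B, Red (G A) (G B) ↔ Red A B
  gf : ∀ X, Equiv' (G (F X)) X
  fg : ∀ X, Equiv' (F (G X)) X

/-- Four involutions of `ℕ`. -/
def perm : Bool → Bool → ℕ → ℕ
  | false, false, t => t
  | true, false, t => if t % 2 = 0 then t + 1 else t - 1
  | false, true, t => if t = 0 then 0 else if t % 2 = 1 then t + 1 else t - 1
  | true, true, t => if t = 0 then 1 else if t = 1 then 0 else t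

/-- The two bits coding the letters `a`, `b`, `tau`. -/
def code : Fin 3 → Bool × Bool
  | 0 => (true, false)
  | 1 => (false, true)
  | 2 => (true, true)

/-- A letter as an involution of `ℕ`. -/
def letter (c : Fin 3) : ℕ → ℕ := perm (code c).1 (code c).2

/-- Apply in every column the involution coded by the parameter. -/
def fop (P X : S) : S := fun p =>
  X (Nat.pair (Nat.unpair p).1
    (perm (P (2 * (Nat.unpair p).1)) (P (2 * (Nat.unpair p).1 + 1)) (Nat.unpair p).2))

/-- Add `A` to every column. -/
def tog (A X : S) : S := fun p => xor (X p) (A (Nat.unpair p).2)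

/-- Negate one bit. -/
def flipAt (p : ℕ) (X : S) : S := fun q => if q = p then !(X q) else X q

/-- Product space of five parameters: three letters, `Q`, and the configuration. -/
abbrev W := (S × S × S) × S × S

/-- The parameter of a letter. -/
def pp (w : W) : Fin 3 → S
  | 0 => w.1.1
  | 1 => w.1.2.1
  | 2 => w.1.2.2

/-- Encoding of `W` as one real. -/
def enc (w : W) : S := join (join w.1.1 (join w.1.2.1 w.1.2.2)) (join w.2.1 w.2.2)

/-- The derived operation of a letter. -/
def dop (P : Fin 3 → S) (Q : S) (c : Fin 3) (X : S) : S := fop Q (fop (P c) X)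

/-- Apply a word of derived operations (head applied last). -/
def wapply (P : Fin 3 → S) (Q : S) (u : List (Fin 3)) (X : S) : S := u.foldr (dop P Q) X

/-- The permutation of positions induced by a word. -/
def wperm (u : List (Fin 3)) : ℕ → ℕ := u.foldr (fun c g => g ∘ letter c) id

/-- A word inducing the transposition of `0` and `n`. -/
def word : ℕ → List (Fin 3)
  | 0 => []
  | 1 => [2]
  | n + 2 => if (n + 1) % 2 = 1 then 1 :: word (n + 1) ++ [1] else 2 :: 0 :: word (n + 1) ++ [0, 2]

/-- `A` is nonmeagre in every nonempty open subset of `U`. -/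
def ENM {α : Type*} [TopologicalSpace α] (A U : Set α) : Prop :=
  ∀ V, IsOpen V → V.Nonempty → V ⊆ U → ¬ IsMeagre (A ∩ V)

end Vale.Agent.P327
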