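/-
P327: functionals = Mathlib Turing reducibility on total 0-1 oracles (owner helper15).
-/
import Vale.Agent.P327.Defs

namespace Vale.Agent.P327

private theorem pref_succ (X : S) (m : ℕ) : pref X (m + 1) = pref X m ++ [X m] := by
  simp [pref, List.range_succ]

private theorem pref_mono (X : S) {m k : ℕ} (h : m ≤ k) : pref X m <+: pref X k := by
  induction h with
  | refl => exact List.prefix_rfl
  | step _ ih => exact ih.trans (pref_succ X _ ▸ List.prefix_append _ _)

private theorem pref_length (X : S) (m : ℕ) : (pref X m).length = m := by simp [pref]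

/-! ### From functionals to `RecursiveIn` -/

/-- A total function recursive in the oracle of `B`. -/
private def Tot (B : S) (g : ℕ → ℕ) : Prop :=
  Nat.RecursiveIn {chi B} fun n => Part.some (g n)

private theorem tot_of_computable {B : S} {g : ℕ → ℕ} (hg : Computable g) : Tot B g :=
  Nat.Partrec.recursiveIn (Partrec.nat_iff.1 hg)

private theorem tot_comp {B : S} {f h : ℕ → ℕ} (hf : Tot B f) (hh : Tot B h) :
    Tot B fun n => f (h n) :=
  (Nat.RecursiveIn.comp hf hh).of_eq fun n => by simp

private theorem tot_pair {B : S} {f h : ℕ → ℕ} (hf : Tot B f) (hh : Tot B h) :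
    Tot B fun n => Nat.pair (f n) (h n) :=
  (Nat.RecursiveIn.pair hf hh).of_eq fun n => by simp [Seq.seq]

private theorem tot_oracle (B : S) : Tot B fun n => if B n then 1 else 0 :=
  Nat.RecursiveIn.oracle _ rfl

private theorem tot_prec {B : S} {f h : ℕ → ℕ} (hf : Tot B f) (hh : Tot B h) :
    Tot B fun p => (Nat.unpair p).2.rec (f (Nat.unpair p).1)
      fun y i => h (Nat.pair (Nat.unpair p).1 (Nat.pair y i)) :=
  (Nat.RecursiveIn.prec hf hh).of_eq fun p => by
    beta_reduce
    generalize Nat.unpair p = q
    obtain ⟨a, k⟩ := q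
    dsimp only
    induction k with
    | zero => rfl
    | succ k ih =>
      exact (congrArg (fun x => x >>= fun i => Part.some (h (Nat.pair a (Nat.pair k i)))) ih).trans
        (by simp)

private theorem tot_rfind {B : S} {f : ℕ → ℕ} (hf : Tot B f)
    (h : ∀ a, ∃ k, f (Nat.pair a k) = 0) :
    ∃ N, Tot B N ∧ ∀ a, f (Nat.pair a (N a)) = 0 :=
  ⟨fun a => Nat.find (h a),
    (Nat.RecursiveIn.rfind hf).of_eq fun a => Part.eq_some_iff.2 <| Nat.mem_rfind.2
      ⟨by simp [Nat.find_spec (h a)], fun {m} hm => by simp [Nat.find_min (h a) hm]⟩,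
    fun a => Nat.find_spec (h a)⟩

private theorem tot_pref (B : S) : Tot B fun m => Encodable.encode (pref B m) := by
  set c : ℕ → ℕ := fun p => Encodable.encode
    (((Encodable.decode (Nat.unpair (Nat.unpair (Nat.unpair p).1).2).2 : Option (List Bool))).getD []
      ++ [decide ((Nat.unpair p).2 = 1)]) with hc
  have hcc : Computable c := by
    have h1 : Primrec fun p : ℕ => (Nat.unpair (Nat.unpair (Nat.unpair p).1).2).2 :=
      Primrec.snd.comp (Primrec.unpair.comp (Primrec.snd.comp (Primrec.unpair.comp
        (Primrec.fst.comp Primrec.unpair))))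
    exact (Primrec.encode.comp (Primrec.list_append.comp
      (Primrec.option_getD.comp (Primrec.decode.comp h1) (Primrec.const []))
      (Primrec.list_cons.comp (PrimrecPred.decide (Primrec.eq.comp
        (Primrec.snd.comp Primrec.unpair) (Primrec.const 1))) (Primrec.const [])))).to_comp
  have hyc : Computable fun q : ℕ => (Nat.unpair (Nat.unpair q).2).1 :=
    (Primrec.fst.comp (Primrec.unpair.comp (Primrec.snd.comp Primrec.unpair))).to_comp
  have hstep : Tot B fun q =>
      c (Nat.pair q (if B (Nat.unpair (Nat.unpair q).2).1 then 1 else 0)) :=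
    tot_comp (tot_of_computable hcc)
      (tot_pair (tot_of_computable Computable.id)
        (tot_comp (tot_oracle B) (tot_of_computable hyc)))
  have := tot_comp (tot_prec (tot_of_computable (B := B)
      (Computable.const (Encodable.encode ([] : List Bool)))) hstep)
    (tot_pair (tot_of_computable (Computable.const 0)) (tot_of_computable Computable.id))
  refine Nat.RecursiveIn.of_eq this fun m => congrArg Part.some ?_
  simp only [id, Nat.unpair_pair]
  induction m with
  | zero => rfl
  | succ m ih =>
    simp only [ih]
    simp only [hc, Nat.unpair_pair, Encodable.encodek, Option.getD_some, pref_succ]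
    cases B m <;> rfl

theorem le_of_red {A B : S} (h : Red A B) : Le A B := by
  obtain ⟨φ, hφ⟩ := h
  set g : ℕ → Option Bool := fun p =>
    φ.val ((Encodable.decode (Nat.unpair p).2 : Option (List Bool)).getD []) (Nat.unpair p).1
    with hg
  have hgc : Computable g := φ.computable_val.comp
    (Primrec.option_getD.comp (Primrec.decode.comp (Primrec.snd.comp Primrec.unpair))
      (Primrec.const [])).to_comp (Primrec.fst.comp Primrec.unpair).to_comp
  set d : ℕ → ℕ := fun p => Option.casesOn (g p) 1 fun _ => 0 with hd
  have hdc : Computable d :=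
    Computable.option_casesOn hgc (Computable.const 1) (Computable.const 0).to₂
  set r : ℕ → ℕ := fun p => if g p = some true then 1 else 0 with hr
  have hrc : Computable r :=
    ((Primrec.ite (Primrec.eq.comp Primrec.id (Primrec.const (some true))) (Primrec.const 1)
      (Primrec.const 0)).to_comp.comp hgc)
  have hne : Tot B fun q =>
      d (Nat.pair (Nat.unpair q).1 (Encodable.encode (pref B (Nat.unpair q).2))) :=
    tot_comp (tot_of_computable hdc) (tot_pair
      (tot_of_computable (Primrec.fst.comp Primrec.unpair).to_comp)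
      (tot_comp (tot_pref B) (tot_of_computable (Primrec.snd.comp Primrec.unpair).to_comp)))
  have hex : ∀ n, ∃ k, (fun q =>
      d (Nat.pair (Nat.unpair q).1 (Encodable.encode (pref B (Nat.unpair q).2))))
        (Nat.pair n k) = 0 := fun n => by
    obtain ⟨m, hm⟩ := hφ n
    exact ⟨m, by simp [hd, hg, hm]⟩
  obtain ⟨N, hN, hN'⟩ := tot_rfind hne hex
  have hout := tot_comp (tot_of_computable (B := B) hrc) (tot_pair
    (tot_of_computable Computable.id) (tot_comp (tot_pref B) hN))
  refine RecursiveIn.iff_nat.2 (Nat.RecursiveIn.of_eq hout fun n => congrArg Part.some ?_)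
  have hs := hN' n
  simp only [hd, hg, hr, id, Nat.unpair_pair, Encodable.encodek, Option.getD_some] at hs ⊢
  revert hs
  generalize N n = k
  intro hs
  obtain ⟨m, hm⟩ := hφ n
  cases hk : φ.val (pref B k) n with
  | none => simp [hk] at hs
  | some b =>
    have e1 := φ.mono (pref_mono B (le_max_left k m)) hk
    have e2 := φ.mono (pref_mono B (le_max_right k m)) hm
    have hb : b = A n := Option.some.inj (e1.symm.trans e2)
    subst hb
    cases hA : A n <;> simp

/-! ### From `RecursiveIn` to functionals -/

/-- A partial function given by computable monotone approximations from the oracle `B`. -/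
private def Approx (B : S) (f : ℕ →. ℕ) : Prop :=
  ∃ F : List Bool → ℕ → Option ℕ, Computable₂ F ∧
    (∀ s t : List Bool, s <+: t → ∀ n v, F s n = some v → F t n = some v) ∧
    ∀ n v, v ∈ f n ↔ ∃ m, F (pref B m) n = some v

private theorem approx_computable {B : S} {g : ℕ → ℕ} (hg : Computable g) :
    Approx B fun n => Part.some (g n) := by
  refine ⟨fun _ n => some (g n), (Computable.option_some.comp (hg.comp Computable.snd)).to₂,
    fun _ _ _ _ _ h => h, fun n v => ?_⟩
  simp [eq_comm]

/-- The bounded search of a zero. -/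
private def search (F : ℕ → Option ℕ) : ℕ → Option (Option ℕ)
  | 0 => none
  | y + 1 => Option.casesOn (search F y)
      (Option.casesOn (F y) (some none) fun v => if v = 0 then some (some y) else none)
      fun r => some r

private theorem search_spec (F : ℕ → Option ℕ) (k : ℕ) :
    (search F k = none ↔ ∀ j < k, ∃ w, w ≠ 0 ∧ F j = some w) ∧
    ∀ v, search F k = some (some v) ↔
      v < k ∧ F v = some 0 ∧ ∀ j < v, ∃ w, w ≠ 0 ∧ F j = some w := by
  induction k with
  | zero => simp [search]
  | succ k ih =>
    obtain ⟨ih1, ih2⟩ := ih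
    cases hs : search F k with
    | none =>
      have hpos := ih1.1 hs
      have hnot : ∀ v, ¬ (v < k ∧ F v = some 0) := fun v hv => by
        obtain ⟨w, hw, hw'⟩ := hpos v hv.1
        exact hw (Option.some.inj (hw'.symm.trans hv.2))
      cases hF : F k with
      | none =>
        simp only [search, hs, hF, reduceCtorEq, false_iff, Option.some.injEq]
        refine ⟨fun h => ?_, fun v h => ?_⟩
        · obtain ⟨w, -, hw⟩ := h k (Nat.lt_succ_self k)
          simp [hF] at hw
        · rcases Nat.lt_succ_iff_lt_or_eq.1 h.1 with hv | hv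
          · exact hnot v ⟨hv, h.2.1⟩
          · subst hv
            simp [hF] at h
      | some w =>
        by_cases hw : w = 0
        · subst hw
          simp only [search, hs, hF, if_true, reduceCtorEq, false_iff, Option.some.injEq]
          refine ⟨fun h => ?_, fun v => ⟨fun h => ?_, fun h => ?_⟩⟩
          · obtain ⟨w, hw, hw'⟩ := h k (Nat.lt_succ_self k)
            exact hw (Option.some.inj (hw'.symm.trans hF))
          · exact h ▸ ⟨Nat.lt_succ_self k, hF, hpos⟩
          · rcases Nat.lt_succ_iff_lt_or_eq.1 h.1 with hv | hv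
            · exact absurd ⟨hv, h.2.1⟩ (hnot v)
            · exact hv.symm
        · simp only [search, hs, hF, hw, if_false, reduceCtorEq, false_iff, true_iff]
          refine ⟨fun j hj => ?_, fun v h => ?_⟩
          · rcases Nat.lt_succ_iff_lt_or_eq.1 hj with hj | hj
            · exact hpos j hj
            · exact hj ▸ ⟨w, hw, hF⟩
          · rcases Nat.lt_succ_iff_lt_or_eq.1 h.1 with hv | hv
            · exact hnot v ⟨hv, h.2.1⟩
            · subst hv
              simp [hF, hw] at h
    | some r =>
      simp only [search, hs, reduceCtorEq, false_iff]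
      refine ⟨fun h => ?_, fun v => ?_⟩
      · have := ih1.2 fun j hj => h j (Nat.lt_succ_of_lt hj)
        simp [hs] at this
      · rw [← hs, ih2 v]
        refine ⟨fun h => ⟨Nat.lt_succ_of_lt h.1, h.2⟩, fun h => ?_⟩
        rcases Nat.lt_succ_iff_lt_or_eq.1 h.1 with hv | hv
        · exact ⟨hv, h.2⟩
        · subst hv
          have := ih1.2 h.2.2
          simp [hs] at this

private theorem approx_oracle (B : S) : Approx B (chi B) := by
  refine ⟨fun s n => (s[n]?).map fun b : Bool => if b then 1 else 0,
    (Computable.option_map Computable.list_getElem?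
      (((Computable.cond Computable.snd (Computable.const 1) (Computable.const 0)).of_eq
        fun p => by rcases p with ⟨_, b⟩; cases b <;> rfl : Computable fun p : (List Bool × ℕ) × Bool =>
          if p.2 then 1 else 0)).to₂).to₂, fun s t hst n v h => ?_, fun n v => ?_⟩
  · obtain ⟨r, rfl⟩ := hst
    cases hs : s[n]? with
    | none => simp [hs] at h
    | some b =>
      have hn : n < s.length := (List.getElem?_eq_some_iff.1 hs).1
      simpa [List.getElem?_append_left hn, hs] using h
  · rw [chi, Part.mem_some_iff]
    simp only [pref, List.getElem?_map]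
    refine ⟨fun h => ⟨n + 1, by simp [h]⟩, fun ⟨m, hm⟩ => ?_⟩
    by_cases hnm : n < m
    · simp [hnm] at hm
      exact hm.symm
    · simp [hnm] at hm

private theorem approx_pair {B : S} {f h : ℕ →. ℕ} (ihf : Approx B f) (ihh : Approx B h) :
    Approx B fun n => (Nat.pair <$> f n <*> h n) := by
  obtain ⟨F, hFc, hFm, hF⟩ := ihf
  obtain ⟨H, hHc, hHm, hH⟩ := ihh
  refine ⟨fun s n => (F s n).bind fun a => (H s n).map fun b => Nat.pair a b,
    (Computable.option_bind hFc (Computable.option_map (hHc.comp
      (Computable.fst.comp Computable.fst) (Computable.snd.comp Computable.fst))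
        (Primrec₂.natPair.to_comp.comp (Computable.snd.comp Computable.fst)
          Computable.snd).to₂).to₂).to₂, fun s t hst n v hv => ?_, fun n v => ?_⟩
  · simp only [Option.bind_eq_some_iff, Option.map_eq_some_iff] at hv ⊢
    obtain ⟨a, ha, b, hb, rfl⟩ := hv
    exact ⟨a, hFm s t hst n a ha, b, hHm s t hst n b hb, rfl⟩
  · simp only [Part.map_eq_map, Seq.seq, Part.mem_bind_iff,
      Part.mem_map_iff, hF, hH, Option.bind_eq_some_iff, Option.map_eq_some_iff]
    constructor
    · rintro ⟨g, ⟨a, ⟨m, ha⟩, rfl⟩, b, ⟨m', hb⟩, rfl⟩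
      exact ⟨max m m', a, hFm _ _ (pref_mono B (le_max_left m m')) n a ha,
        b, hHm _ _ (pref_mono B (le_max_right m m')) n b hb, rfl⟩
    · rintro ⟨m, a, ha, b, hb, rfl⟩
      exact ⟨_, ⟨a, ⟨m, ha⟩, rfl⟩, b, ⟨m, hb⟩, rfl⟩

private theorem approx_comp {B : S} {f h : ℕ →. ℕ} (ihf : Approx B f) (ihh : Approx B h) :
    Approx B fun n => h n >>= f := by
  obtain ⟨F, hFc, hFm, hF⟩ := ihf
  obtain ⟨H, hHc, hHm, hH⟩ := ihh
  refine ⟨fun s n => (H s n).bind fun a => F s a,
    (Computable.option_bind hHc
      (hFc.comp (Computable.fst.comp Computable.fst) Computable.snd).to₂).to₂,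
    fun s t hst n v hv => ?_, fun n v => ?_⟩
  · simp only [Option.bind_eq_some_iff] at hv ⊢
    obtain ⟨a, ha, hv⟩ := hv
    exact ⟨a, hHm s t hst n a ha, hFm s t hst a v hv⟩
  · refine Part.mem_bind_iff.trans ?_
    simp only [hF, hH, Option.bind_eq_some_iff]
    constructor
    · rintro ⟨a, ⟨m, ha⟩, m', hv⟩
      exact ⟨max m m', a, hHm _ _ (pref_mono B (le_max_left m m')) n a ha,
        hFm _ _ (pref_mono B (le_max_right m m')) a v hv⟩
    · rintro ⟨m, a, ha, hv⟩
      exact ⟨a, ⟨m, ha⟩, m, hv⟩

private theorem approx_prec {B : S} {f h : ℕ →. ℕ} (ihf : Approx B f) (ihh : Approx B h) :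
    Approx B (fun p : ℕ =>
      let (a, n) := Nat.unpair p
      (Nat.rec (f a) (fun y IH => IH >>= fun i => h (Nat.pair a (Nat.pair y i))) n : Part ℕ)) := by
  obtain ⟨F, hFc, hFm, hF⟩ := ihf
  obtain ⟨H, hHc, hHm, hH⟩ := ihh
  let K : List Bool → ℕ → ℕ → Option ℕ := fun s a k =>
    k.rec (F s a) fun y IH => IH.bind fun i => H s (Nat.pair a (Nat.pair y i))
  have hKc : Computable fun p : List Bool × ℕ =>
      K p.1 (Nat.unpair p.2).1 (Nat.unpair p.2).2 := by
    have ha : Computable fun p : List Bool × ℕ => (Nat.unpair p.2).1 :=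
      Computable.fst.comp (Computable.unpair.comp Computable.snd)
    have hk : Computable fun p : List Bool × ℕ => (Nat.unpair p.2).2 :=
      Computable.snd.comp (Computable.unpair.comp Computable.snd)
    have hg2 : Computable₂ fun (q : (List Bool × ℕ) × (ℕ × Option ℕ)) (i : ℕ) =>
        H q.1.1 (Nat.pair (Nat.unpair q.1.2).1 (Nat.pair q.2.1 i)) :=
      (hHc.comp (Computable.fst.comp (Computable.fst.comp Computable.fst))
        (Primrec₂.natPair.to_comp.comp
          (Computable.fst.comp (Computable.unpair.comp
            (Computable.snd.comp (Computable.fst.comp Computable.fst))))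
          (Primrec₂.natPair.to_comp.comp
            (Computable.fst.comp (Computable.snd.comp Computable.fst))
            Computable.snd))).to₂
    have hb : Computable₂ fun (a : List Bool × ℕ) (q : ℕ × Option ℕ) =>
        q.2.bind fun i => H a.1 (Nat.pair (Nat.unpair a.2).1 (Nat.pair q.1 i)) :=
      (Computable.option_bind
        (Computable.snd.comp (Computable.snd (α := List Bool × ℕ) (β := ℕ × Option ℕ))) hg2).to₂
    have h0 := Computable.nat_rec hk (hFc.comp Computable.fst ha) hb
    exact h0
  have hKm : ∀ s t : List Bool, s <+: t → ∀ a k v, K s a k = some v → K t a k = some v := by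
    intro s t hst a k
    induction k with
    | zero => exact fun v => hFm s t hst a v
    | succ k ih =>
      intro v hv
      obtain ⟨i, hi, hv⟩ := Option.bind_eq_some_iff.1 hv
      exact Option.bind_eq_some_iff.2 ⟨i, ih i hi, hHm s t hst _ v hv⟩
  refine ⟨fun s p => K s (Nat.unpair p).1 (Nat.unpair p).2, hKc.to₂,
    fun s t hst p v hv => hKm s t hst _ _ v hv, fun p v => ?_⟩
  beta_reduce
  generalize Nat.unpair p = q
  obtain ⟨a, k⟩ := q
  dsimp only
  induction k generalizing v with
  | zero => exact hF a v
  | succ k ih =>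
    refine Part.mem_bind_iff.trans ?_
    constructor
    · rintro ⟨i, hi, hv⟩
      obtain ⟨m, hm⟩ := (ih i).1 hi
      obtain ⟨m', hv⟩ := (hH _ v).1 hv
      exact ⟨max m m', Option.bind_eq_some_iff.2
        ⟨i, hKm _ _ (pref_mono B (le_max_left m m')) a k i hm,
          hHm _ _ (pref_mono B (le_max_right m m')) _ v hv⟩⟩
    · rintro ⟨m, hm⟩
      obtain ⟨i, hi, hv⟩ := Option.bind_eq_some_iff.1 hm
      exact ⟨i, (ih i).2 ⟨m, hi⟩, (hH _ v).2 ⟨m, hv⟩⟩

private theorem approx_rfind {B : S} {f : ℕ →. ℕ} (ihf : Approx B f) :
    Approx B fun a => Nat.rfind fun n => (fun m => m = 0) <$> f (Nat.pair a n) := by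
  obtain ⟨F, hFc, hFm, hF⟩ := ihf
  refine ⟨fun s a => (search (fun k => F s (Nat.pair a k)) s.length).getD none, ?_,
    fun s t hst a v hv => ?_, fun a v => ?_⟩
  · have hsc : Computable fun p : List Bool × ℕ =>
        search (fun k => F p.1 (Nat.pair p.2 k)) p.1.length := by
      have h := Computable.nat_rec (σ := Option (Option ℕ))
        (Computable.list_length.comp (Computable.fst (α := List Bool) (β := ℕ)))
        (Computable.const none)
        (Computable.option_casesOn (Computable.snd.comp Computable.snd)
          (Computable.option_casesOn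
            (hFc.comp (Computable.fst.comp Computable.fst) (Primrec₂.natPair.to_comp.comp
              (Computable.snd.comp Computable.fst) (Computable.fst.comp Computable.snd)))
            (Computable.const (some none))
            ((Computable.cond (Primrec.eq.decide.to_comp.comp Computable.snd
                (Computable.const 0))
              (Computable.option_some.comp (Computable.option_some.comp
                (Computable.fst.comp (Computable.snd.comp Computable.fst))))
              (Computable.const none))).to₂)
          (Computable.option_some.comp Computable.snd).to₂).to₂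
      refine h.of_eq fun p => ?_
      induction p.1.length with
      | zero => rfl
      | succ k ih =>
        simp only [search, ← ih]
        simp only [Bool.cond_decide]
    exact (Computable.option_getD hsc (Computable.const none)).to₂
  · have hs : search (fun k => F s (Nat.pair a k)) s.length = some (some v) := by
      cases h : search (fun k => F s (Nat.pair a k)) s.length with
      | none => simp [h] at hv
      | some r => simp [h] at hv; simp [hv]
    obtain ⟨h1, h2, h3⟩ := ((search_spec _ _).2 v).1 hs
    have ht : search (fun k => F t (Nat.pair a k)) t.length = some (some v) :=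
      ((search_spec _ _).2 v).2 ⟨h1.trans_le hst.length_le, hFm s t hst _ _ h2, fun j hj => by
        obtain ⟨w, hw, hw'⟩ := h3 j hj
        exact ⟨w, hw, hFm s t hst _ _ hw'⟩⟩
    simp [ht]
  · have hgetD : ∀ m, (search (fun k => F (pref B m) (Nat.pair a k)) (pref B m).length).getD none
        = some v ↔ v < m ∧ F (pref B m) (Nat.pair a v) = some 0 ∧
          ∀ j < v, ∃ w, w ≠ 0 ∧ F (pref B m) (Nat.pair a j) = some w := fun m => by
      rw [← (search_spec (fun k => F (pref B m) (Nat.pair a k)) m).2 v, pref_length]
      cases search (fun k => F (pref B m) (Nat.pair a k)) m <;> simp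
    simp only [hgetD]
    refine Nat.mem_rfind.trans ?_
    simp only [Part.map_eq_map, Part.mem_map_iff, hF, decide_eq_true_eq, decide_eq_false_iff_not]
    constructor
    · rintro ⟨⟨w, ⟨m0, hw⟩, hw0⟩, hlt⟩
      obtain rfl : w = 0 := by simpa using hw0
      have hlt' : ∀ j : Fin v, ∃ m, ∃ w, w ≠ 0 ∧ F (pref B m) (Nat.pair a j) = some w :=
        fun j => by
          obtain ⟨w, ⟨m, hm⟩, hw⟩ := hlt j.2
          exact ⟨m, w, by simpa using hw, hm⟩
      choose mj wj hwj hmj using hlt'
      let M := max (max m0 (Finset.univ.sup mj)) (v + 1)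
      refine ⟨M, ?_, hFm _ _ (pref_mono B ((le_max_left _ _).trans (le_max_left _ _))) _ _ hw,
        fun j hj => ⟨wj ⟨j, hj⟩, hwj _, hFm _ _ (pref_mono B ?_) _ _ (hmj ⟨j, hj⟩)⟩⟩
      · exact (Nat.lt_succ_self v).trans_le (le_max_right _ _)
      · exact ((Finset.le_sup (Finset.mem_univ _)).trans (le_max_right _ _)).trans
          (le_max_left _ _)
    · rintro ⟨m, -, h0, hlt⟩
      refine ⟨⟨0, ⟨m, h0⟩, by simp⟩, fun {j} hj => ?_⟩
      obtain ⟨w, hw, hw'⟩ := hlt j hj
      exact ⟨w, ⟨m, hw'⟩, by simpa using hw⟩

private theorem approx_of_recursiveIn {B : S} {f : ℕ →. ℕ}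
    (hf : Nat.RecursiveIn {chi B} f) : Approx B f := by
  induction hf with
  | zero => exact approx_computable (Computable.const 0)
  | succ => exact approx_computable Computable.succ
  | left => exact approx_computable (Primrec.fst.comp Primrec.unpair).to_comp
  | right => exact approx_computable (Primrec.snd.comp Primrec.unpair).to_comp
  | oracle g hg => exact hg ▸ approx_oracle B
  | pair _ _ ihf ihh => exact approx_pair ihf ihh
  | comp _ _ ihf ihh => exact approx_comp ihf ihh
  | prec _ _ ihf ihh => exact approx_prec ihf ihh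
  | rfind _ ihf => exact approx_rfind ihf

theorem red_of_le {A B : S} (h : Le A B) : Red A B := by
  obtain ⟨F, hFc, hFm, hF⟩ := approx_of_recursiveIn (RecursiveIn.iff_nat.1 h)
  refine ⟨⟨fun s n => (F s n).map fun v => decide (v = 1), fun s t hst n b hb => ?_,
    (Computable.option_map hFc (Primrec.eq.decide.to_comp.comp Computable.snd
      (Computable.const 1)).to₂).to₂⟩, fun n => ?_⟩
  · simp only [Option.map_eq_some_iff] at hb ⊢
    obtain ⟨v, hv, rfl⟩ := hb
    exact ⟨v, hFm s t hst n v hv, rfl⟩
  · obtain ⟨m, hm⟩ := (hF n (if A n then 1 else 0)).1 (Part.mem_some _)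
    exact ⟨m, by cases hA : A n <;> simp_all⟩

theorem le_iff_red {A B : S} : Le A B ↔ Red A B := ⟨red_of_le, le_of_red⟩

end Vale.Agent.P327
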