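/-
P327: the Turing degrees of sets of natural numbers (total 0-1 oracles).
-/
import Vale.Agent.P327.Defs

namespace Vale.Agent.P327

/-- Sets of natural numbers (as characteristic functions) up to Turing equivalence. -/
def Deg : Type := Quotient (α := S)
  ⟨fun A B => Le A B ∧ Le B A, fun _ => ⟨TuringReducible.refl _, TuringReducible.refl _⟩,
    fun h => ⟨h.2, h.1⟩, fun h h' => ⟨h.1.trans h'.1, h'.2.trans h.2⟩⟩

/-- The order of the Turing degrees. -/
def Deg.le : Deg → Deg → Prop := Quotient.lift₂ Le fun _ _ _ _ h h' =>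
  propext ⟨fun k => (h.2.trans k).trans h'.1, fun k => (h.1.trans k).trans h'.2⟩

end Vale.Agent.P327
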