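/-
P327: Baire category lemmas (owner helper10): localisation of nonmeagre sets, the Kuratowski-Ulam
section lemma, products of everywhere nonmeagre sets, cylinders of Cantor space.
-/
import Vale.Agent.P327.Defs

namespace Vale.Agent.P327

open TopologicalSpace Set Filter
open scoped Topology

variable {α β ι : Type*} [TopologicalSpace α] [TopologicalSpace β]

private theorem meagre_diffs {s u : Set α} (h : s =ᵇ u) :
    IsMeagre (s \ u) ∧ IsMeagre (u \ s) := by
  rw [Filter.eventuallyEq_set] at h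
  constructor <;>
  · show _ ∈ residual α
    filter_upwards [h] with x hx
    simp [hx]

private theorem meagre_boundary {u : Set α} (hu : IsOpen u) : IsMeagre (closure u \ u) := by
  show _ ∈ residual α
  filter_upwards [(Filter.eventuallyEq_set.1 (closure_residualEq hu.isLocallyClosed))] with x hx
  simp [hx]

/-- Kuratowski-Ulam: almost every section of a meagre set is meagre. -/
theorem isMeagre_bad_sections [SecondCountableTopology β] {M : Set (α × β)} (h : IsMeagre M) :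
    IsMeagre {x | ¬ IsMeagre (Prod.mk x ⁻¹' M)} := by
  obtain ⟨T, hT, hTc, hsub⟩ := isMeagre_iff_countable_union_isNowhereDense.1 h
  have hbad : ∀ N : Set (α × β), IsClosed N → IsNowhereDense N →
      IsMeagre {x | ¬ IsNowhereDense (Prod.mk x ⁻¹' N)} := by
    intro N hN hN0
    refine IsMeagre.mono ?_ (isMeagre_biUnion (countable_countableBasis β)
      (f := fun W => ⋂ y ∈ W, (fun x => (x, y)) ⁻¹' N) fun W hW => ?_)
    · intro x hx
      rw [mem_ofPred_eq, (hN.preimage (Continuous.prodMk_right x)).isNowhereDense_iff,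
        ← Ne, ← nonempty_iff_ne_empty] at hx
      obtain ⟨y, hy⟩ := hx
      obtain ⟨W, hW, -, hWsub⟩ :=
        (isBasis_countableBasis β).exists_subset_of_mem_open hy isOpen_interior
      exact mem_biUnion hW (mem_iInter₂.2 fun z hz => (interior_subset (hWsub hz) :))
    · have hcl : IsClosed (⋂ y ∈ W, (fun x => (x, y)) ⁻¹' N) :=
        isClosed_biInter fun y _ => hN.preimage (by fun_prop)
      refine IsNowhereDense.isMeagre (hcl.isNowhereDense_iff.2 ?_)
      by_contra hne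
      obtain ⟨x, hx⟩ := nonempty_iff_ne_empty.2 hne
      obtain ⟨y, hy⟩ := nonempty_of_mem_countableBasis hW
      have hin : interior (⋂ y ∈ W, (fun x => (x, y)) ⁻¹' N) ×ˢ W ⊆ N := fun p hp =>
        mem_iInter₂.1 (interior_subset hp.1) p.2 hp.2
      have := interior_maximal hin (isOpen_interior.prod (isOpen_of_mem_countableBasis hW))
      rw [hN.isNowhereDense_iff.1 hN0] at this
      exact this (mk_mem_prod hx hy)
  refine IsMeagre.mono ?_ (isMeagre_biUnion hTc
    (f := fun t => {x | ¬ IsNowhereDense (Prod.mk x ⁻¹' closure t)})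
    fun t ht => hbad _ isClosed_closure (hT t ht).closure)
  intro x hx
  by_contra hc
  simp only [mem_iUnion, mem_ofPred_eq, not_exists, not_not] at hc
  refine hx (IsMeagre.mono ?_
    (isMeagre_biUnion hTc (f := fun t => Prod.mk x ⁻¹' closure t) fun t ht => (hc t ht).isMeagre))
  intro y hy
  obtain ⟨t, ht, hyt⟩ := hsub hy
  exact mem_biUnion ht (show (x, y) ∈ closure t from subset_closure hyt)

theorem exists_nonmeagre_piece [BaireSpace α] [Nonempty α] [Countable ι] (A : ι → Set α)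
    (h : ∀ x, ∃ i, x ∈ A i) : ∃ i, ¬ IsMeagre (A i) := by
  by_contra hc
  push Not at hc
  exact not_isMeagre_of_isOpen isOpen_univ univ_nonempty
    ((isMeagre_iUnion hc).mono fun x _ => mem_iUnion.2 (h x))

theorem exists_enm [SecondCountableTopology α] {A : Set α} (h : ¬ IsMeagre A) :
    ∃ U, IsOpen U ∧ U.Nonempty ∧ ENM A U := by
  by_contra hc
  apply h
  set 𝒲 := {W ∈ countableBasis α | IsMeagre (A ∩ W)} with h𝒲
  have hc𝒲 : 𝒲.Countable := (countable_countableBasis α).mono (sep_subset _ _)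
  have ho : IsOpen (⋃₀ 𝒲) := isOpen_sUnion fun W hW => isOpen_of_mem_countableBasis hW.1
  have hd : Dense (⋃₀ 𝒲) := by
    rw [dense_iff_inter_open]
    intro U hU hne
    by_contra hemp
    refine hc ⟨U, hU, hne, fun V hV hVne hVU hmea => ?_⟩
    obtain ⟨x, hx⟩ := hVne
    obtain ⟨W, hW, hxW, hWV⟩ := (isBasis_countableBasis α).exists_subset_of_mem_open hx hV
    exact hemp ⟨x, hVU hx, W, ⟨hW, hmea.mono (inter_subset_inter_right _ hWV)⟩, hxW⟩
  have h1 : IsMeagre (⋃₀ 𝒲)ᶜ := by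
    show _ ∈ residual α
    rw [compl_compl]; exact residual_of_dense_open ho hd
  refine IsMeagre.mono ?_ (h1.union (isMeagre_biUnion hc𝒲 (f := fun W => A ∩ W) fun W hW => hW.2))
  intro x hx
  by_cases hxW : x ∈ ⋃₀ 𝒲
  · obtain ⟨W, hW, hxW⟩ := hxW
    exact Or.inr (mem_biUnion hW ⟨hx, hxW⟩)
  · exact Or.inl hxW

theorem ENM.mono {A A' U U' : Set α} (h : ENM A U) (hA : A ⊆ A') (hU : U' ⊆ U) : ENM A' U' :=
  fun V hV hne hVU hm =>
    h V hV hne (hVU.trans hU) (hm.mono (inter_subset_inter_left _ hA))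

theorem ENM.isMeagre_diff {A L U : Set α} (h : ENM A U) (hU : IsOpen U) (hL : BaireMeasurableSet L)
    (hAL : A ⊆ L) : IsMeagre (U \ L) := by
  obtain ⟨u, hu, hLu⟩ := hL.residualEq_isOpen
  obtain ⟨h1, h2⟩ := meagre_diffs hLu
  have hsub : U ⊆ closure u := by
    by_contra hns
    obtain ⟨x, hxU, hxu⟩ := not_subset.1 hns
    refine h (U ∩ (closure u)ᶜ) (hU.inter isClosed_closure.isOpen_compl) ⟨x, hxU, hxu⟩
      inter_subset_left (IsMeagre.mono ?_ h1)
    rintro y ⟨hyA, -, hyu⟩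
    exact ⟨hAL hyA, fun hy => hyu (subset_closure hy)⟩
  refine IsMeagre.mono ?_ ((meagre_boundary hu).union h2)
  rintro x ⟨hxU, hxL⟩
  by_cases hxu : x ∈ u
  · exact Or.inr ⟨hxu, hxL⟩
  · exact Or.inl ⟨hsub hxU, hxu⟩

theorem ENM.not_isMeagre_inter {A U G : Set α} (h : ENM A U) (hU : IsOpen U) (hne : U.Nonempty)
    (hG : IsMeagre (U \ G)) : ¬ IsMeagre (A ∩ U ∩ G) := by
  intro hm
  refine h U hU hne subset_rfl (IsMeagre.mono ?_ (hm.union hG))
  intro x hx
  by_cases hxG : x ∈ G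
  · exact Or.inl ⟨hx, hxG⟩
  · exact Or.inr ⟨hx.2, hxG⟩

theorem ENM.prod [SecondCountableTopology β] {A U : Set α} {B V : Set β} (hA : ENM A U)
    (hB : ENM B V) (hU : IsOpen U) (hV : IsOpen V) : ENM (A ×ˢ B) (U ×ˢ V) := by
  intro O hO hne hsub hm
  obtain ⟨⟨a, b⟩, hab⟩ := hne
  obtain ⟨O₁, O₂, h1, h2, ha, hb, h12⟩ := isOpen_prod_iff.1 hO a b hab
  have hx : ¬ IsMeagre ((A ∩ (O₁ ∩ U)) \
      {x | ¬ IsMeagre (Prod.mk x ⁻¹' (A ×ˢ B ∩ O))}) := by
    intro hm'
    refine hA (O₁ ∩ U) (h1.inter hU) ⟨a, ha, (hsub hab).1⟩ inter_subset_right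
      (IsMeagre.mono ?_ (hm'.union (isMeagre_bad_sections hm)))
    intro x hx
    simp only [mem_union, Set.mem_sdiff]
    tauto
  obtain ⟨x, ⟨hxA, hxO, -⟩, hxgood⟩ := nonempty_of_not_isMeagre hx
  simp only [mem_ofPred_eq, not_not] at hxgood
  refine hB (O₂ ∩ V) (h2.inter hV) ⟨b, hb, (hsub hab).2⟩ inter_subset_right
    (IsMeagre.mono ?_ hxgood)
  rintro y ⟨hyB, hyO, -⟩
  exact ⟨⟨hxA, hyB⟩, h12 ⟨hxO, hyO⟩⟩

theorem ENM.image_fst {A : Set (α × β)} {U : Set α} {V : Set β} (h : ENM A (U ×ˢ V))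
    (hU : IsOpen U) (hV : IsOpen V) (hne : V.Nonempty) : ENM (Prod.fst '' A) U := by
  intro O hO hOne hOU hm
  refine h (O ×ˢ V) (hO.prod hV) (hOne.prod hne) (prod_mono hOU subset_rfl)
    (IsMeagre.mono ?_ (hm.preimage_of_isOpenMap continuous_fst isOpenMap_fst))
  rintro p ⟨hpA, hpO⟩
  exact ⟨mem_image_of_mem _ hpA, hpO.1⟩

theorem ENM.image_snd {A : Set (α × β)} {U : Set α} {V : Set β} (h : ENM A (U ×ˢ V))
    (hU : IsOpen U) (hV : IsOpen V) (hne : U.Nonempty) : ENM (Prod.snd '' A) V := by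
  intro O hO hOne hOV hm
  refine h (U ×ˢ O) (hU.prod hO) (hne.prod hOne) (prod_mono subset_rfl hOV)
    (IsMeagre.mono ?_ (hm.preimage_of_isOpenMap continuous_snd isOpenMap_snd))
  rintro p ⟨hpA, hpO⟩
  exact ⟨mem_image_of_mem _ hpA, hpO.2⟩

theorem isMeagre_diff_of_prod [SecondCountableTopology α] [SecondCountableTopology β]
    [BaireSpace (α × β)] {U : Set α} {V : Set β} {B : Set β} (hU : IsOpen U) (hne : U.Nonempty)
    (hV : IsOpen V) (hB : BaireMeasurableSet B)
    (h : IsMeagre ((U ×ˢ V) \ (Prod.snd ⁻¹' B))) : IsMeagre (V \ B) := by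
  obtain ⟨u, hu, hBu⟩ := (hV.baireMeasurableSet.diff hB).residualEq_isOpen
  obtain ⟨h1, h2⟩ := meagre_diffs hBu
  rcases u.eq_empty_or_nonempty with rfl | hune
  · rwa [sdiff_empty] at h1
  · refine absurd (IsMeagre.mono ?_ (h.union
      (h2.preimage_of_isOpenMap continuous_snd isOpenMap_snd)))
      (not_isMeagre_of_isOpen (hU.prod hu) (hne.prod hune))
    rintro p ⟨hpU, hpu⟩
    by_cases hp : p.2 ∈ V \ B
    · exact Or.inl ⟨⟨hpU, hp.1⟩, hp.2⟩
    · exact Or.inr ⟨hpu, hp⟩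

theorem mem_cyl {s : List Bool} {X : S} :
    X ∈ cyl s ↔ ∀ i (h : i < s.length), X i = s[i] := by
  rw [cyl, mem_ofPred_eq, List.ext_getElem_iff]
  simp [pref]

theorem isOpen_cyl (s : List Bool) : IsOpen (cyl s) := by
  have : cyl s = ⋂ i : Fin s.length, (fun X : S => X i) ⁻¹' {s[i]} := by
    ext X
    simp [mem_cyl, Fin.forall_iff]
  rw [this]
  exact isOpen_iInter_of_finite fun i => (isOpen_discrete _).preimage (continuous_apply _)

theorem cyl_nonempty (s : List Bool) : (cyl s).Nonempty :=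
  ⟨fun i => s.getD i false, mem_cyl.2 fun i h => by simp [h]⟩

theorem cyl_mono {s t : List Bool} (h : s <+: t) : cyl t ⊆ cyl s := by
  intro X hX
  rw [mem_cyl] at hX ⊢
  intro i hi
  rw [hX i (hi.trans_le h.length_le), h.getElem hi]

/-- Every nonempty open set inside `cyl s` contains a cylinder of a string extending `s`,
of any large length. -/
theorem exists_cyl_subset {U : Set S} (hU : IsOpen U) {s : List Bool}
    (hne : (U ∩ cyl s).Nonempty) (L : ℕ) :
    ∃ t, s <+: t ∧ L ≤ t.length ∧ cyl t ⊆ U := by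
  obtain ⟨X, hXU, hXs⟩ := hne
  obtain ⟨I, u, hu, hsub⟩ := isOpen_pi_iff.1 hU X hXU
  set n := max (max L s.length) (I.sup id + 1) with hn
  refine ⟨pref X n, ?_, by simp [pref, hn], fun Y hY => hsub fun a ha => ?_⟩
  · rw [List.prefix_iff_eq_take]
    refine List.ext_getElem (by simp [pref, hn]) fun i hi _ => ?_
    simp [pref, mem_cyl.1 hXs i hi]
  · have hlt : a < n :=
      lt_of_lt_of_le (Nat.lt_succ_of_le (Finset.le_sup (f := id) ha)) (le_max_right _ _)
    have := mem_cyl.1 hY a (by simpa [pref] using hlt)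
    simp only [pref, List.getElem_map, List.getElem_range] at this
    rw [this]
    exact (hu a ha).2

/-- A Borel set that is nonmeagre in `cyl s` is comeagre in some smaller cylinder. -/
theorem exists_cyl_ae {B : Set S} (hB : MeasurableSet B) {s : List Bool}
    (h : ¬ IsMeagre (B ∩ cyl s)) (L : ℕ) :
    ∃ t, s <+: t ∧ L ≤ t.length ∧ IsMeagre (cyl t \ B) := by
  obtain ⟨u, hu, hBu⟩ := hB.baireMeasurableSet.residualEq_isOpen
  obtain ⟨h1, h2⟩ := meagre_diffs hBu
  have hne : (u ∩ cyl s).Nonempty := by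
    by_contra hc
    refine h (IsMeagre.mono ?_ h1)
    rintro x ⟨hxB, hxs⟩
    exact ⟨hxB, fun hxu => hc ⟨x, hxu, hxs⟩⟩
  obtain ⟨t, hst, hL, htu⟩ := exists_cyl_subset hu hne L
  exact ⟨t, hst, hL, h2.mono (sdiff_subset_sdiff_left htu)⟩

end Vale.Agent.P327
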