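import Mathlib

/-! P327, Step 1: a coding parameter from which every `Y` can be read off through reducibility.

`C m true` and `C m false` are the two versions of column `m`; `column C Y` takes in column `m`
the version selected by `Y m`. For every countable family of finite-use functionals `C` can be
chosen so that no functional computes `C n true` from `column C Y` when `Y n = false`. -/

namespace Vale.Agent.P327

open Finset

/-- The oracle whose column `m` is the version of column `m` selected by `Y m`. -/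
def column (C : ℕ → Bool → ℕ → Bool) (Y : ℕ → Bool) : ℕ → Bool :=
  fun j => C (Nat.unpair j).1 (Y (Nat.unpair j).1) (Nat.unpair j).2

/-- A partial functional given pointwise has finite use. -/
def FiniteUse (Φ : (ℕ → Bool) → ℕ → Option Bool) : Prop :=
  ∀ Q x v, Φ Q x = some v → ∃ F : Finset ℕ, ∀ Q', (∀ j ∈ F, Q' j = Q j) → Φ Q' x = some v

namespace CodingAux

/-- A condition: finitely many positions at which both versions are decided. -/
structure Cond where
  dom : Finset (ℕ × ℕ)
  val : ℕ → Bool → ℕ → Bool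

/-- Agreement with a condition on its domain. -/
def Cond.Ext (p : Cond) (C : ℕ → Bool → ℕ → Bool) : Prop :=
  ∀ z ∈ p.dom, ∀ b, C z.1 b z.2 = p.val z.1 b z.2

/-- Extension of conditions. -/
def Cond.Le (p q : Cond) : Prop := p.dom ⊆ q.dom ∧ p.Ext q.val

lemma Cond.Le.refl (p : Cond) : p.Le p := ⟨subset_rfl, fun _ _ _ => rfl⟩

lemma Cond.Le.ext {p q : Cond} (h : p.Le q) {C : ℕ → Bool → ℕ → Bool} (hC : q.Ext C) : p.Ext C :=
  fun z hz b => (hC z (h.1 hz) b).trans (h.2 z hz b)

lemma Cond.Le.trans {p q r : Cond} (h : p.Le q) (h' : q.Le r) : p.Le r :=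
  ⟨h.1.trans h'.1, h.ext h'.2⟩

/-- The pairs meeting the requirement of `Φ` and column `n` for all `Y` of the class `T` on `S`. -/
def Good (Φ : (ℕ → Bool) → ℕ → Option Bool) (n : ℕ) (S T : Finset ℕ) (q : Cond) : Prop :=
  ∀ C, q.Ext C → ∀ Y : ℕ → Bool, Y n = false → S.filter (fun m => Y m = true) = T →
    ∃ x, Φ (column C Y) x ≠ some (C n true x)

lemma step (Φ : (ℕ → Bool) → ℕ → Option Bool) (hΦ : FiniteUse Φ) (n : ℕ) (S : Finset ℕ)
    (hn : n ∈ S) (l : Finset (Finset ℕ)) (p : Cond)
    (hp : ∀ z ∈ p.dom, z.1 ∈ S) :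
    ∃ q : Cond, p.Le q ∧ (∀ z ∈ q.dom, z.1 ∉ S → q.val z.1 true z.2 = q.val z.1 false z.2) ∧
      ∀ T ∈ l, Good Φ n S T q := by
  classical
  induction l using Finset.induction with
  | empty => exact ⟨p, .refl p, fun z hz h => absurd (hp z hz) h, by simp⟩
  | @insert T l _ ih =>
    obtain ⟨q, hpq, hsym, hgood⟩ := ih
    obtain ⟨x, hx⟩ := Infinite.exists_notMem_finset (q.dom.image Prod.snd)
    have hxq : ((n, x) : ℕ × ℕ) ∉ q.dom := fun h => hx (mem_image.2 ⟨_, h, rfl⟩)
    -- the content of the oracle on the decided positions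
    have key : ∀ C, q.Ext C → ∀ Y : ℕ → Bool, S.filter (fun m => Y m = true) = T →
        ∀ z ∈ q.dom, column C Y (Nat.pair z.1 z.2) = q.val z.1 (decide (z.1 ∈ T)) z.2 := by
      intro C hC Y hY z hz
      simp only [column, Nat.unpair_pair]
      rw [hC z hz]
      by_cases hS : z.1 ∈ S
      · congr 1
        subst hY
        cases hb : Y z.1 <;> simp [hS, hb]
      · cases Y z.1 <;> cases decide (z.1 ∈ T) <;> simp [hsym z hz hS]
    by_cases hc : ∃ Q v, (∀ z ∈ q.dom, Q (Nat.pair z.1 z.2) = q.val z.1 (decide (z.1 ∈ T)) z.2) ∧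
        Φ Q x = some v
    · obtain ⟨Q, v, hQ, hv⟩ := hc
      obtain ⟨F, hF⟩ := hΦ Q x v hv
      set r : Cond := ⟨insert (n, x) (q.dom ∪ F.image Nat.unpair), fun m b k =>
        if (m, k) ∈ q.dom then q.val m b k
        else if m = n ∧ k = x ∧ b = true then !v else Q (Nat.pair m k)⟩ with hr
      have hqr : q.Le r := by
        refine ⟨fun z hz => mem_insert_of_mem (mem_union_left _ hz), fun z hz b => ?_⟩
        simp [hr, hz]
      refine ⟨r, hpq.trans hqr, fun z hz hS => ?_, ?_⟩
      · have hne : z.1 ≠ n := fun h => hS (h ▸ hn)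
        by_cases hzq : z ∈ q.dom
        · simp [hr, hzq, hsym z hzq hS]
        · simp [hr, hzq, hne]
      · simp only [forall_mem_insert]
        refine ⟨fun C hC Y hYn hY => ⟨x, ?_⟩, fun T' hT' C hC => hgood T' hT' C (hqr.ext hC)⟩
        have hA : C n true x = !v := by
          rw [hC (n, x) (mem_insert_self _ _)]
          simp [hr, hxq]
        have hcol : ∀ j ∈ F, column C Y j = Q j := by
          intro j hj
          set z := Nat.unpair j with hz
          have hjz : Nat.pair z.1 z.2 = j := Nat.pair_unpair j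
          by_cases hzq : z ∈ q.dom
          · rw [← hjz, key C (hqr.ext hC) Y hY z hzq, hQ z hzq]
          · have hzr : z ∈ r.dom := mem_insert_of_mem (mem_union_right _ (mem_image.2 ⟨j, hj, rfl⟩))
            show C z.1 (Y z.1) z.2 = Q j
            rw [hC z hzr]
            have : ¬ (z.1 = n ∧ z.2 = x ∧ Y z.1 = true) := fun ⟨h1, _, h3⟩ => by
              rw [h1, hYn] at h3
              exact Bool.false_ne_true h3
            simp only [hr]
            rw [if_neg hzq, if_neg this, hjz]
        rw [hF _ hcol, hA]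
        simp
    · refine ⟨q, hpq, hsym, ?_⟩
      simp only [forall_mem_insert]
      refine ⟨fun C hC Y _ hY => ⟨x, fun h => ?_⟩, hgood⟩
      exact hc ⟨_, _, key C hC Y hY, h⟩

/-- Every condition extends to one meeting the requirement of `Φ` and column `n`. -/
lemma dense (Φ : (ℕ → Bool) → ℕ → Option Bool) (hΦ : FiniteUse Φ) (n : ℕ) (p : Cond) :
    ∃ q : Cond, p.Le q ∧ ∀ C, q.Ext C → ∀ Y : ℕ → Bool, Y n = false →
      ∃ x, Φ (column C Y) x ≠ some (C n true x) := by
  classical
  set S := insert n (p.dom.image Prod.fst) with hS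
  obtain ⟨q, hpq, -, hq⟩ := step Φ hΦ n S (mem_insert_self _ _) S.powerset p
    fun z hz => mem_insert_of_mem (mem_image.2 ⟨z, hz, rfl⟩)
  exact ⟨q, hpq, fun C hC Y hY => hq _ (mem_powerset.2 (filter_subset _ _)) C hC Y hY rfl⟩

end CodingAux

open CodingAux in
/-- Step 1 coding: the parameter `C`. -/
theorem exists_coding_array {ι : Type*} [Countable ι] (Φ : ι → (ℕ → Bool) → ℕ → Option Bool)
    (hΦ : ∀ e, FiniteUse (Φ e)) :
    ∃ C : ℕ → Bool → ℕ → Bool, ∀ e (Y : ℕ → Bool) n, Y n = false →
      ∃ x, Φ e (column C Y) x ≠ some (C n true x) := by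
  classical
  cases isEmpty_or_nonempty ι with
  | inl h => exact ⟨fun _ _ _ => false, fun e => h.elim e⟩
  | inr h =>
    obtain ⟨enum, henum⟩ := exists_surjective_nat (ι × ℕ)
    choose g hg hgood using fun (r : ι × ℕ) (p : Cond) => dense (Φ r.1) (hΦ r.1) r.2 p
    set p : ℕ → Cond := fun k => Nat.rec ⟨∅, fun _ _ _ => false⟩ (fun i q => g (enum i) q) k with hp
    have hmono : ∀ {i j}, i ≤ j → (p i).Le (p j) := by
      intro i j hij
      induction hij with
      | refl => exact .refl _
      | step _ ih => exact ih.trans (hg _ _)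
    set C : ℕ → Bool → ℕ → Bool := fun m b k =>
      if h : ∃ i, (m, k) ∈ (p i).dom then (p (Nat.find h)).val m b k else false with hC
    have hext : ∀ i, (p i).Ext C := by
      intro i z hz b
      have h : ∃ i, (z.1, z.2) ∈ (p i).dom := ⟨i, hz⟩
      simp only [hC, dif_pos h]
      exact ((hmono (Nat.find_min' h hz)).2 z (Nat.find_spec h) b).symm
    refine ⟨C, fun e Y n hY => ?_⟩
    obtain ⟨i, hi⟩ := henum (e, n)
    have hg' := hgood (enum i) (p i) C (hext (i + 1))
    rw [hi] at hg'
    exact hg' Y hY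

end Vale.Agent.P327
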