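/-
P327: basic API of functionals (owner helper12).
-/
import Vale.Agent.P327.Defs

namespace Vale.Agent.P327

@[simp] theorem length_pref (X : S) (n : ℕ) : (pref X n).length = n := by simp [pref]

theorem getElem?_pref (X : S) {i n : ℕ} (h : i < n) : (pref X n)[i]? = some (X i) := by
  simp [pref, h]

theorem pref_prefix (X : S) {m n : ℕ} (h : m ≤ n) : pref X m <+: pref X n := by
  obtain ⟨k, rfl⟩ := Nat.exists_eq_add_of_le h
  refine ⟨((List.range k).map (m + ·)).map X, ?_⟩
  rw [pref, pref, List.range_add, List.map_append]

private theorem mem_cyl_func {s : List Bool} {X : S} :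
    X ∈ cyl s ↔ ∀ i (h : i < s.length), X i = s[i] := by
  constructor
  · intro hX i h
    have h1 := getElem?_pref X h
    rw [show pref X s.length = s from hX, List.getElem?_eq_getElem h] at h1
    exact (Option.some.inj h1).symm
  · intro hX
    refine List.ext_getElem (by simp) (fun i h1 h2 => ?_)
    simp only [pref, List.getElem_map, List.getElem_range]
    exact hX i h2

theorem pref_eq_iff {s : List Bool} {X : S} {m : ℕ} :
    pref X m = s ↔ s.length = m ∧ X ∈ cyl s := by
  constructor
  · intro h
    have hl : s.length = m := by rw [← h]; simp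
    exact ⟨hl, show pref X s.length = s by rw [hl]; exact h⟩
  · rintro ⟨rfl, h⟩
    exact h

theorem Fn.mono_pref (φ : Fn) (Y : S) {m m' : ℕ} (h : m ≤ m') {n : ℕ} {b : Bool}
    (hb : φ.val (pref Y m) n = some b) : φ.val (pref Y m') n = some b :=
  φ.mono (pref_prefix Y h) hb

theorem Fn.pref_unique (φ : Fn) (Y : S) {m m' n : ℕ} {b b' : Bool}
    (hb : φ.val (pref Y m) n = some b) (hb' : φ.val (pref Y m') n = some b') : b = b' := by
  have h1 := φ.mono_pref Y (le_max_left m m') hb
  rw [φ.mono_pref Y (le_max_right m m') hb'] at h1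
  exact (Option.some.inj h1).symm

theorem Out.unique {φ : Fn} {Y X X' : S} (h : Out φ Y X) (h' : Out φ Y X') : X = X' := by
  funext n
  obtain ⟨m, hm⟩ := h n
  obtain ⟨m', hm'⟩ := h' n
  exact φ.pref_unique Y hm hm'

theorem Out.ev_eq {φ : Fn} {Y X : S} (h : Out φ Y X) : ev φ Y = X := by
  funext n
  obtain ⟨m, hm⟩ := h n
  simp only [ev]
  cases hX : X n
  · rw [hX] at hm
    simp only [decide_eq_false_iff_not, not_exists]
    intro m' hm'
    exact Bool.noConfusion (φ.pref_unique Y hm hm')
  · rw [hX] at hm
    simp only [decide_eq_true_eq]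
    exact ⟨m, hm⟩

/-- A code of a functional. -/
theorem exists_code_val (φ : Fn) : ∃ c : Nat.Partrec.Code, ∀ s n,
    c.eval (Encodable.encode (s, n)) = Part.some (Encodable.encode (φ.val s n)) := by
  obtain ⟨c, hc⟩ := Nat.Partrec.Code.exists_code.1 φ.computable_val
  exact ⟨c, fun s n => by simp [hc]⟩

instance : Countable Fn := by
  classical
  refine Function.Injective.countable (f := fun φ : Fn => Classical.choose (exists_code_val φ)) ?_
  intro φ ψ h
  have hφ := Classical.choose_spec (exists_code_val φ)
  have hψ := Classical.choose_spec (exists_code_val ψ)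
  simp only at h
  have hval : φ.val = ψ.val := by
    funext s n
    have h1 := hφ s n
    rw [h, hψ s n] at h1
    exact (Encodable.encode_injective (Part.some_inj.1 h1)).symm
  cases φ
  cases ψ
  simp only at hval
  subst hval
  rfl

instance : Nonempty Fn :=
  ⟨⟨fun _ _ => none, fun _ _ _ _ _ h => h, Computable.const none⟩⟩

theorem measurableSet_cyl (s : List Bool) : MeasurableSet (cyl s) := by
  have : cyl s = ⋂ i : Fin s.length, {X : S | X i = s[(i : ℕ)]} := by
    ext X
    simp only [Set.mem_iInter, Set.mem_ofPred_eq, mem_cyl_func]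
    exact ⟨fun h i => h i i.2, fun h i hi => h ⟨i, hi⟩⟩
  rw [this]
  exact MeasurableSet.iInter fun i =>
    measurableSet_eq_fun (measurable_pi_apply _) measurable_const

theorem measurableSet_pref {α : Type*} [MeasurableSpace α] {f : α → S} (hf : Measurable f)
    (m : ℕ) (P : List Bool → Prop) : MeasurableSet {z | P (pref (f z) m)} := by
  have : {z | P (pref (f z) m)} =
      ⋃ s : {s : List Bool // s.length = m ∧ P s}, f ⁻¹' cyl s.1 := by
    ext z
    simp only [Set.mem_ofPred_eq, Set.mem_iUnion, Set.mem_preimage]
    constructor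
    · intro h
      exact ⟨⟨pref (f z) m, by simp, h⟩, by simp [cyl]⟩
    · rintro ⟨⟨s, hs, hP⟩, h⟩
      rwa [(pref_eq_iff.2 ⟨hs, h⟩ : pref (f z) m = s)]
  rw [this]
  exact MeasurableSet.iUnion fun s => hf (measurableSet_cyl s.1)

theorem measurable_ev (φ : Fn) : Measurable (ev φ) := by
  refine measurable_pi_lambda _ fun n => measurable_to_bool ?_
  have : (fun Y => ev φ Y n) ⁻¹' {true} =
      ⋃ m, {Y : S | φ.val (pref Y m) n = some true} := by
    ext Y
    simp [ev]
  rw [this]
  exact MeasurableSet.iUnion fun m => measurableSet_pref measurable_id m (φ.val · n = some true)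

theorem measurableSet_out {α : Type*} [MeasurableSpace α] {f g : α → S} (φ : Fn)
    (hf : Measurable f) (hg : Measurable g) : MeasurableSet {z | Out φ (f z) (g z)} := by
  have : {z | Out φ (f z) (g z)} = ⋂ n, ⋃ m, ⋃ b : Bool,
      ({z | φ.val (pref (f z) m) n = some b} ∩ {z | g z n = b}) := by
    ext z
    simp only [Set.mem_ofPred_eq, Set.mem_iInter, Set.mem_iUnion, Set.mem_inter_iff, Out]
    exact forall_congr' fun n => exists_congr fun m =>
      ⟨fun h => ⟨_, h, rfl⟩, fun ⟨b, h, hb⟩ => hb ▸ h⟩
  rw [this]
  exact MeasurableSet.iInter fun n => MeasurableSet.iUnion fun m => MeasurableSet.iUnion fun b =>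
    (measurableSet_pref hf m (φ.val · n = some b)).inter
      (measurableSet_eq_fun ((measurable_pi_apply n).comp hg) measurable_const)

theorem measurableSet_red (A : S) : MeasurableSet {Y : S | Red A Y} := by
  have : {Y : S | Red A Y} = ⋃ φ : Fn, {Y | Out φ Y A} := by
    ext Y
    simp [Red]
  rw [this]
  exact MeasurableSet.iUnion fun φ => measurableSet_out φ measurable_id measurable_const

/-- Uniform finite use gives a functional, uniformly in the oracle. -/
theorem exists_fn_of_use (u : ℕ → ℕ) (g : ℕ → List Bool → Bool) (hu : Computable u)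
    (hg : Computable₂ g) : ∃ φ : Fn, ∀ Y, Out φ Y (fun n => g n (pref Y (u n))) := by
  let v : List Bool → ℕ → Option Bool := fun s n =>
    bif decide (u n ≤ s.length) then some (g n (s.take (u n))) else none
  have hv : Computable₂ v := by
    have hle : Computable fun p : List Bool × ℕ => decide (u p.2 ≤ p.1.length) :=
      (Primrec.nat_le.decide.to_comp).comp (hu.comp Computable.snd)
        (Computable.list_length.comp Computable.fst)
    have htk : Computable fun p : List Bool × ℕ => p.1.take (u p.2) :=
      (Primrec.list_take.to_comp).comp (hu.comp Computable.snd) Computable.fst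
    exact Computable.cond hle
      (Computable.option_some.comp (hg.comp Computable.snd htk)) (Computable.const none)
  refine ⟨⟨v, ?_, hv⟩, fun Y n => ⟨u n, ?_⟩⟩
  · intro s t hst n b h
    simp only [v] at h ⊢
    by_cases hs : u n ≤ s.length
    · have ht : u n ≤ t.length := hs.trans hst.length_le
      obtain ⟨r, rfl⟩ := hst
      simp [hs] at h
      rw [decide_eq_true ht]
      simp [List.take_append_of_le_length hs, h]
    · simp [hs] at h
  · simp [v, List.take_of_length_le]

/-- The output of a functional on a finite string, up to length `k`. -/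
def outk (φ : Fn) (s : List Bool) (k : ℕ) : List Bool :=
  Nat.rec [] (fun _ l => ((φ.val s l.length).map fun b => l ++ [b]).getD l) k

theorem outk_succ (φ : Fn) (s : List Bool) (k : ℕ) : outk φ s (k + 1) =
    ((φ.val s (outk φ s k).length).map fun b => outk φ s k ++ [b]).getD (outk φ s k) := rfl

theorem outk_le_succ (φ : Fn) (s : List Bool) (k : ℕ) : outk φ s k <+: outk φ s (k + 1) := by
  rw [outk_succ]
  cases φ.val s (outk φ s k).length <;> simp

theorem outk_le (φ : Fn) (s : List Bool) {k k' : ℕ} (h : k ≤ k') :
    outk φ s k <+: outk φ s k' := by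
  induction h with
  | refl => exact List.prefix_refl _
  | step _ ih => exact ih.trans (outk_le_succ φ s _)

theorem outk_spec (φ : Fn) (s : List Bool) : ∀ k i, ∀ h : i < (outk φ s k).length,
    φ.val s i = some (outk φ s k)[i] := by
  intro k
  induction k with
  | zero => intro i h; simp [outk] at h
  | succ k ih =>
    intro i h
    cases hv : φ.val s (outk φ s k).length with
    | none =>
      have e : outk φ s (k + 1) = outk φ s k := by rw [outk_succ, hv]; rfl
      simp only [e] at h ⊢
      exact ih i h
    | some b =>
      have e : outk φ s (k + 1) = outk φ s k ++ [b] := by rw [outk_succ, hv]; rfl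
      simp only [e] at h ⊢
      by_cases hi : i < (outk φ s k).length
      · rw [List.getElem_append_left hi]
        exact ih i hi
      · have hi' : i = (outk φ s k).length := by simp at h; omega
        subst hi'
        simpa using hv

theorem outk_length (φ : Fn) (s : List Bool) : ∀ k, (∀ i < k, (φ.val s i).isSome) →
    (outk φ s k).length = k := by
  intro k
  induction k with
  | zero => intro; rfl
  | succ k ih =>
    intro h
    have hl := ih fun i hi => h i (by omega)
    obtain ⟨b, hb⟩ := Option.isSome_iff_exists.1 (h k (by omega))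
    rw [outk_succ, hl, hb]
    simp [hl]

theorem outk_mono (φ : Fn) {s t : List Bool} (hst : s <+: t) :
    ∀ k, outk φ s k <+: outk φ t k := by
  intro k
  induction k with
  | zero => exact List.prefix_refl _
  | succ k ih =>
    cases hv : φ.val s (outk φ s k).length with
    | none =>
      have e : outk φ s (k + 1) = outk φ s k := by rw [outk_succ, hv]; rfl
      rw [e]
      exact ih.trans (outk_le_succ φ t k)
    | some b =>
      have e : outk φ s (k + 1) = outk φ s k ++ [b] := by rw [outk_succ, hv]; rfl
      have ht := φ.mono hst hv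
      obtain ⟨r, hr⟩ := ih
      rw [e]
      cases r with
      | nil =>
        simp only [List.append_nil] at hr
        rw [outk_succ φ t, ← hr, ht]
        simp
      | cons c r =>
        have hlt : (outk φ s k).length < (outk φ t k).length := by rw [← hr]; simp
        have h1 := outk_spec φ t k _ hlt
        rw [ht] at h1
        have h2 : (outk φ t k)[(outk φ s k).length] = c := by simp [← hr]
        rw [h2] at h1
        obtain rfl : b = c := Option.some.inj h1
        exact List.IsPrefix.trans (⟨r, by rw [← hr]; simp⟩ : outk φ s k ++ [b] <+: outk φ t k)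
          (outk_le_succ φ t k)

theorem outk_computable (φ : Fn) : Computable fun s : List Bool => outk φ s s.length := by
  have hstep : Computable₂ fun (s : List Bool) (p : ℕ × List Bool) =>
      ((φ.val s p.2.length).map fun b => p.2 ++ [b]).getD p.2 := by
    have h1 : Computable fun q : List Bool × ℕ × List Bool => φ.val q.1 q.2.2.length :=
      φ.computable_val.comp Computable.fst
        (Computable.list_length.comp (Computable.snd.comp Computable.snd))
    have h2 : Computable₂ fun (q : List Bool × ℕ × List Bool) (b : Bool) => q.2.2 ++ [b] :=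
      Computable.list_concat.comp (Computable.snd.comp (Computable.snd.comp Computable.fst))
        Computable.snd
    exact Computable.option_getD (Computable.option_map h1 h2)
      (Computable.snd.comp Computable.snd)
  exact Computable.nat_rec Computable.list_length (Computable.const []) hstep

/-- Composition. -/
theorem exists_fn_comp (φ ψ : Fn) :
    ∃ χ : Fn, ∀ {Z Y X : S}, Out φ Z Y → Out ψ Y X → Out χ Z X := by
  refine ⟨⟨fun s n => ψ.val (outk φ s s.length) n, ?_, ?_⟩, ?_⟩
  · intro s t hst n b h
    exact ψ.mono ((outk_mono φ hst _).trans (outk_le φ t hst.length_le)) h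
  · exact ψ.computable_val.comp ((outk_computable φ).comp Computable.fst) Computable.snd
  · intro Z Y X hY hX n
    obtain ⟨m, hm⟩ := hX n
    choose M hM using hY
    refine ⟨max m ((Finset.range m).sup M), ?_⟩
    set L := max m ((Finset.range m).sup M)
    show ψ.val (outk φ (pref Z L) (pref Z L).length) n = some (X n)
    have hL : ∀ i < m, φ.val (pref Z L) i = some (Y i) := fun i hi =>
      φ.mono_pref Z ((Finset.le_sup (f := M) (Finset.mem_range.2 hi)).trans (le_max_right _ _))
        (hM i)
    have hlen : (outk φ (pref Z L) m).length = m :=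
      outk_length φ _ m fun i hi => by rw [hL i hi]; rfl
    have heq : outk φ (pref Z L) m = pref Y m := by
      refine List.ext_getElem (by simp [hlen]) fun i h1 h2 => ?_
      have h3 := outk_spec φ (pref Z L) m i h1
      rw [hL i (hlen ▸ h1)] at h3
      simp only [pref, List.getElem_map, List.getElem_range]
      exact (Option.some.inj h3).symm
    refine ψ.mono ?_ hm
    rw [← heq, length_pref]
    exact outk_le φ _ (le_max_left _ _)

theorem Red.refl (X : S) : Red X X := by
  obtain ⟨φ, hφ⟩ := exists_fn_of_use (fun n => n + 1) (fun n l => l[n]?.getD false)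
    Computable.succ
    (Computable.option_getD (Computable.list_getElem?.comp Computable.snd Computable.fst)
      (Computable.const false))
  refine ⟨φ, ?_⟩
  convert hφ X using 1
  funext n
  rw [getElem?_pref X (Nat.lt_succ_self n)]
  rfl

theorem Red.trans {X Y Z : S} (h : Red X Y) (h' : Red Y Z) : Red X Z := by
  obtain ⟨φ, hφ⟩ := h'
  obtain ⟨ψ, hψ⟩ := h
  obtain ⟨χ, hχ⟩ := exists_fn_comp φ ψ
  exact ⟨χ, hχ hφ hψ⟩

theorem red_of_bit (X Y : S) (u : ℕ → ℕ) (hu : Computable u) (h : ∀ n, X n = Y (u n)) :
    Red X Y := by
  obtain ⟨φ, hφ⟩ := exists_fn_of_use (fun n => u n + 1) (fun n l => l[u n]?.getD false)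
    (Computable.succ.comp hu)
    (Computable.option_getD
      (Computable.list_getElem?.comp Computable.snd (hu.comp Computable.fst))
      (Computable.const false))
  refine ⟨φ, ?_⟩
  convert hφ Y using 1
  funext n
  rw [getElem?_pref Y (Nat.lt_succ_self (u n)), h n]
  rfl

theorem red_join_left (A B : S) : Red A (join A B) :=
  red_of_bit _ _ (fun n => 2 * n)
    (Primrec.nat_mul.to_comp.comp (Computable.const 2) Computable.id) (fun n => by simp [join])

theorem red_join_right (A B : S) : Red B (join A B) := by
  refine red_of_bit _ _ (fun n => 2 * n + 1) (Computable.succ.comp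
    (Primrec.nat_mul.to_comp.comp (Computable.const 2) Computable.id)) (fun n => ?_)
  have h1 : (2 * n + 1) % 2 = 1 := by omega
  have h2 : (2 * n + 1) / 2 = n := by omega
  simp [join, h1, h2]

theorem red_join {A B C : S} (hA : Red A C) (hB : Red B C) : Red (join A B) C := by
  obtain ⟨φ, hφ⟩ := hA
  obtain ⟨ψ, hψ⟩ := hB
  refine ⟨⟨fun s n => bif decide (n % 2 = 0) then φ.val s (n / 2) else ψ.val s (n / 2), ?_, ?_⟩, ?_⟩
  · intro s t hst n b h
    by_cases hn : n % 2 = 0
    · simp [hn] at h ⊢
      exact φ.mono hst h
    · simp [hn] at h ⊢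
      exact ψ.mono hst h
  · have hn : Computable fun p : List Bool × ℕ => p.2 / 2 :=
      Primrec.nat_div.to_comp.comp Computable.snd (Computable.const 2)
    have hc : Computable fun p : List Bool × ℕ => decide (p.2 % 2 = 0) :=
      Primrec.eq.decide.to_comp.comp (Primrec.nat_mod.to_comp.comp Computable.snd (Computable.const 2))
        (Computable.const 0)
    exact Computable.cond hc (φ.computable_val.comp Computable.fst hn)
      (ψ.computable_val.comp Computable.fst hn)
  · intro n
    by_cases hn : n % 2 = 0
    · obtain ⟨m, hm⟩ := hφ (n / 2)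
      exact ⟨m, by simp [join, hn, hm]⟩
    · obtain ⟨m, hm⟩ := hψ (n / 2)
      exact ⟨m, by simp [join, hn, hm]⟩

theorem Red.map2 {X Y R : S} (f : Bool → Bool → Bool) (hX : Red X R) (hY : Red Y R) :
    Red (fun n => f (X n) (Y n)) R := by
  obtain ⟨φ, hφ⟩ := hX
  obtain ⟨ψ, hψ⟩ := hY
  refine ⟨⟨fun s n => (φ.val s n).bind fun a => (ψ.val s n).map (f a), ?_, ?_⟩, ?_⟩
  · intro s t hst n b h
    simp only [Option.bind_eq_some_iff, Option.map_eq_some_iff] at h ⊢
    obtain ⟨a, ha, c, hc, hb⟩ := h
    exact ⟨a, φ.mono hst ha, c, ψ.mono hst hc, hb⟩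
  · have h2 : Computable₂ fun (q : List Bool × ℕ) (a : Bool) => (ψ.val q.1 q.2).map (f a) := by
      have h3 : Computable fun r : (List Bool × ℕ) × Bool => ψ.val r.1.1 r.1.2 :=
        ψ.computable_val.comp (Computable.fst.comp Computable.fst)
          (Computable.snd.comp Computable.fst)
      exact Computable.option_map h3
        ((Primrec.dom_bool₂ f).to_comp.comp (Computable.snd.comp Computable.fst) Computable.snd)
    exact Computable.option_bind φ.computable_val h2
  · intro n
    obtain ⟨m, hm⟩ := hφ n
    obtain ⟨m', hm'⟩ := hψ n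
    refine ⟨max m m', ?_⟩
    simp [φ.mono_pref R (le_max_left m m') hm, ψ.mono_pref R (le_max_right m m') hm']

theorem Red.of_eventually {X Y R : S} (N : ℕ) (h : ∀ n, N < n → X n = Y n) (hX : Red X R) :
    Red Y R := by
  obtain ⟨φ, hφ⟩ := hX
  refine ⟨⟨fun s n => bif decide (n ≤ N) then (pref Y (N + 1))[n]? else φ.val s n, ?_, ?_⟩, ?_⟩
  · intro s t hst n b h
    by_cases hn : n ≤ N
    · simp [hn] at h ⊢
      exact h
    · simp [hn] at h ⊢
      exact φ.mono hst h
  · have hc : Computable fun p : List Bool × ℕ => decide (p.2 ≤ N) :=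
      Primrec.nat_le.decide.to_comp.comp Computable.snd (Computable.const N)
    exact Computable.cond hc
      (Computable.list_getElem?.comp (Computable.const (pref Y (N + 1))) Computable.snd)
      φ.computable_val
  · intro n
    by_cases hn : n ≤ N
    · exact ⟨0, by simp only [hn, decide_true, cond_true]; exact getElem?_pref Y (by omega)⟩
    · obtain ⟨m, hm⟩ := hφ n
      exact ⟨m, by simp [hn, hm, h n (by omega)]⟩

theorem IsAuto.symm {F G : S → S} (h : IsAuto F G) : IsAuto G F :=
  ⟨h.mapG, h.mapF, h.fg, h.gf⟩

theorem IsAuto.join_le {F G : S → S} (h : IsAuto F G) (A B : S) :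
    Red (F (join A B)) (join (F A) (F B)) := by
  set J := join (F A) (F B)
  have hA : Red A (G J) := (h.gf A).2.trans ((h.mapG _ _).2 (red_join_left _ _))
  have hB : Red B (G J) := (h.gf B).2.trans ((h.mapG _ _).2 (red_join_right _ _))
  exact ((h.mapF _ _).2 (red_join hA hB)).trans (h.fg J).1

end Vale.Agent.P327
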