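/-
P327: coding and countable Borel covers (owner helper24).
-/
import Vale.Agent.P327.Func
import Vale.Agent.P327.Category
import Vale.Agent.P327.Coding

namespace Vale.Agent.P327

open Classical in
/-- A functional, read pointwise on total oracles. -/
noncomputable def ptw (φ : Fn) (Y : S) (x : ℕ) : Option Bool :=
  if h : ∃ b m, φ.val (pref Y m) x = some b then some h.choose else none

lemma finiteUse_ptw (φ : Fn) : FiniteUse (ptw φ) := by
  intro Q x v h
  unfold ptw at h
  split_ifs at h with hb
  obtain ⟨m, hm⟩ := hb.choose_spec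
  refine ⟨Finset.range m, fun Q' hQ' => ?_⟩
  have he : pref Q' m = pref Q m :=
    List.map_congr_left fun j hj => hQ' j (Finset.mem_range.2 (List.mem_range.1 hj))
  have hb' : ∃ b m, φ.val (pref Q' m) x = some b := ⟨hb.choose, m, by rw [he]; exact hm⟩
  rw [ptw, dif_pos hb']
  obtain ⟨m', hm'⟩ := hb'.choose_spec
  have h1 := φ.mono (pref_prefix Q' (le_max_left m m')) (by rw [he]; exact hm)
  have h2 := φ.mono (pref_prefix Q' (le_max_right m m')) hm'
  exact congrArg some ((Option.some.inj (h2.symm.trans h1)).trans (Option.some.inj h))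

lemma Out.ptw_eq {φ : Fn} {Y X : S} (h : Out φ Y X) (x : ℕ) : ptw φ Y x = some (X x) := by
  obtain ⟨m, hm⟩ := h x
  have hb : ∃ b m, φ.val (pref Y m) x = some b := ⟨_, m, hm⟩
  rw [ptw, dif_pos hb]
  obtain ⟨m', hm'⟩ := hb.choose_spec
  have h1 := φ.mono (pref_prefix Y (le_max_left m m')) hm
  have h2 := φ.mono (pref_prefix Y (le_max_right m m')) hm'
  exact congrArg some (Option.some.inj (h2.symm.trans h1))

/-- Reading a bit of the oracle at computable positions. -/
lemma getD_pref (Y : S) {i n : ℕ} (h : i < n) : (pref Y n).getD i false = Y i := by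
  rw [List.getD_eq_getElem?_getD, getElem?_pref Y h]
  rfl

theorem red_sel (Y C : S) : Red (sel Y C) (join Y C) := by
  let u : ℕ → ℕ := fun p => 2 * (Nat.unpair p).1 + 2 * (2 * p + 1) + 2
  let g : ℕ → List Bool → Bool := fun p s => if s.getD (2 * (Nat.unpair p).1) false
    then s.getD (2 * (2 * p) + 1) false else s.getD (2 * (2 * p + 1) + 1) false
  have hu : Computable u := (Primrec.nat_add.comp (Primrec.nat_add.comp
    (Primrec.nat_mul.comp (Primrec.const 2) (Primrec.fst.comp Primrec.unpair))
    (Primrec.nat_mul.comp (Primrec.const 2)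
      (Primrec.succ.comp (Primrec.nat_mul.comp (Primrec.const 2) Primrec.id)))) (Primrec.const 2)).to_comp
  have hg : Computable₂ g := by
    have hget : ∀ {i : ℕ × List Bool → ℕ}, Primrec i →
        Primrec fun z : ℕ × List Bool => z.2.getD (i z) false := fun hi =>
      (Primrec.list_getD false).comp Primrec.snd hi
    refine Primrec.to_comp (Primrec.ite (Primrec.eq.comp
      (hget (Primrec.nat_mul.comp (Primrec.const 2)
        (Primrec.fst.comp (Primrec.unpair.comp Primrec.fst)))) (Primrec.const true))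
      (hget (Primrec.succ.comp (Primrec.nat_mul.comp (Primrec.const 2)
        (Primrec.nat_mul.comp (Primrec.const 2) Primrec.fst))))
      (hget (Primrec.succ.comp (Primrec.nat_mul.comp (Primrec.const 2)
        (Primrec.succ.comp (Primrec.nat_mul.comp (Primrec.const 2) Primrec.fst))))))
  obtain ⟨φ, hφ⟩ := exists_fn_of_use u g hu hg
  refine ⟨φ, ?_⟩
  convert hφ (join Y C) using 1
  funext p
  simp only [g]
  rw [getD_pref _ (by simp only [u]; omega), getD_pref _ (by simp only [u]; omega),
    getD_pref _ (by simp only [u]; omega)]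
  have e1 : join Y C (2 * (Nat.unpair p).1) = Y (Nat.unpair p).1 := by simp [join]
  have e2 : ∀ q, join Y C (2 * q + 1) = C q := fun q => by
    rw [join, if_neg (by omega)]
    congr 1
    omega
  rw [e1, e2, e2]
  rfl

/-- Columns are reducible to the whole. -/
lemma red_col (X : S) (n : ℕ) : Red (col X n) X := by
  let u : ℕ → ℕ := fun t => Nat.pair n t + 1
  let g : ℕ → List Bool → Bool := fun t s => s.getD (Nat.pair n t) false
  have hu : Computable u :=
    (Primrec.succ.comp (Primrec₂.natPair.comp (Primrec.const n) Primrec.id)).to_comp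
  have hg : Computable₂ g := Primrec.to_comp ((Primrec.list_getD false).comp Primrec.snd
    (Primrec₂.natPair.comp (Primrec.const n) Primrec.fst))
  obtain ⟨φ, hφ⟩ := exists_fn_of_use u g hu hg
  refine ⟨φ, ?_⟩
  convert hφ X using 1
  funext t
  exact (getD_pref X (by simp [u])).symm

theorem exists_coding : ∃ (C : S) (a : ℕ → S), ∀ Y n, (Red (a n) (sel Y C) ↔ Y n = true) := by
  obtain ⟨D, hD⟩ := Vale.Agent.P327.exists_coding_array ptw finiteUse_ptw
  refine ⟨fun j => D (Nat.unpair (j / 2)).1 (decide (j % 2 = 0)) (Nat.unpair (j / 2)).2,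
    fun n => D n true, fun Y n => ?_⟩
  set C : S := fun j => D (Nat.unpair (j / 2)).1 (decide (j % 2 = 0)) (Nat.unpair (j / 2)).2
  have hsel : sel Y C = column D Y := funext fun p => by
    have h1 : (2 * p + 1) / 2 = p := by omega
    have h2 : (2 * p) / 2 = p := by omega
    cases hy : Y (Nat.unpair p).1 <;> simp [sel, column, C, hy, h1, h2]
  rw [hsel]
  refine ⟨fun ⟨φ, hφ⟩ => ?_, fun hn => ?_⟩
  · by_contra hn
    obtain ⟨x, hx⟩ := hD φ Y n (by simpa using hn)
    exact hx (hφ.ptw_eq x)
  · have : col (column D Y) n = D n true := funext fun t => by simp [col, column, hn]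
    show Red (D n true) (column D Y)
    exact this ▸ red_col (column D Y) n

/-- The left inverses of a lift. -/
lemma exists_left_cover {F G : S → S} (h : IsAuto F G) :
    ∃ K : Fn → S → S, (∀ e, Measurable (K e)) ∧ ∀ Y, ∃ e, K e (F Y) = Y := by
  classical
  obtain ⟨C, a, hC⟩ := exists_coding
  have hjoin : Measurable fun V : S => join V (F C) := measurable_pi_lambda _ fun n => by
    by_cases hn : n % 2 = 0
    · simpa [join, hn] using measurable_pi_apply (n / 2)
    · simp [join, hn]
  refine ⟨fun e V n => decide (Red (F (a n)) (ev e (join V (F C)))), fun e => ?_, fun Y => ?_⟩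
  · refine measurable_pi_lambda _ fun n => measurable_to_bool ?_
    have : (fun V => decide (Red (F (a n)) (ev e (join V (F C))))) ⁻¹' {true} =
        (fun V => ev e (join V (F C))) ⁻¹' {Q | Red (F (a n)) Q} := by
      ext V
      simp
    rw [this]
    exact ((measurable_ev e).comp hjoin) (measurableSet_red _)
  · obtain ⟨e, he⟩ := Red.trans ((h.mapF _ _).2 (red_sel Y C)) (h.join_le Y C)
    refine ⟨e, funext fun n => ?_⟩
    show decide (Red (F (a n)) (ev e (join (F Y) (F C)))) = Y n
    rw [he.ev_eq, Bool.eq_iff_iff, decide_eq_true_iff]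
    exact (h.mapF _ _).trans (hC Y n)

theorem exists_cover {F G : S → S} (h : IsAuto F G) :
    ∃ (H : ℕ → S → S) (K : ℕ → S → S), (∀ i, Measurable (H i)) ∧ (∀ l, Measurable (K l)) ∧
      (∀ X, ∃ i, H i X = F X) ∧ (∀ X, ∃ l, K l (F X) = X) := by
  obtain ⟨K, hK, hKF⟩ := exists_left_cover h
  obtain ⟨K', hK', hKG⟩ := exists_left_cover h.symm
  obtain ⟨en, hen⟩ := exists_surjective_nat Fn
  obtain ⟨en2, hen2⟩ := exists_surjective_nat (Fn × Fn)
  refine ⟨fun i X => K' (en2 i).1 (ev (en2 i).2 X), fun l => K (en l),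
    fun i => (hK' _).comp (measurable_ev _), fun l => hK _, fun X => ?_, fun X => ?_⟩
  · obtain ⟨e, he⟩ := hKG (F X)
    obtain ⟨d, hd⟩ := (h.gf X).1
    obtain ⟨i, hi⟩ := hen2 (e, d)
    exact ⟨i, by simp only [hi, hd.ev_eq]; exact he⟩
  · obtain ⟨e, he⟩ := hKF X
    obtain ⟨l, rfl⟩ := hen e
    exact ⟨l, he⟩

end Vale.Agent.P327
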