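/-
P327: operations on configurations and words (owner helper8).
-/
import Vale.Agent.P327.Func
import Vale.Agent.P327.Category

namespace Vale.Agent.P327

open Topology

theorem perm_perm (a b : Bool) (t : ℕ) : perm a b (perm a b t) = t := by
  cases a <;> cases b <;> simp only [perm]
  · rcases eq_or_ne t 0 with rfl | h0
    · rfl
    · rcases Nat.mod_two_eq_zero_or_one t with h | h
      · simp [h0, h, show t - 1 ≠ 0 by omega, show (t - 1) % 2 = 1 by omega,
          show t - 1 + 1 = t by omega]
      · simp [h0, h, show (t + 1) % 2 = 0 by omega]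
  · rcases Nat.mod_two_eq_zero_or_one t with h | h
    · simp [h, show (t + 1) % 2 = 1 by omega]
    · simp [h, show (t - 1) % 2 = 0 by omega, show t - 1 + 1 = t by omega]
  · rcases eq_or_ne t 0 with rfl | h0
    · rfl
    · rcases eq_or_ne t 1 with rfl | h1
      · rfl
      · simp [h0, h1]

theorem perm_le (a b : Bool) (t : ℕ) : perm a b t ≤ t + 1 := by
  cases a <;> cases b <;> simp only [perm] <;> (try split_ifs) <;> omega

theorem fop_apply (P X : S) (m t : ℕ) :
    fop P X (Nat.pair m t) = X (Nat.pair m (perm (P (2 * m)) (P (2 * m + 1)) t)) := by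
  simp [fop, Nat.unpair_pair]

theorem fop_fop (P X : S) : fop P (fop P X) = X := by
  funext p
  simp [fop, Nat.unpair_pair, perm_perm, Nat.pair_unpair]

theorem tog_tog (A X : S) : tog A (tog A X) = X := by
  funext p; simp [tog]

theorem flipAt_flipAt (p : ℕ) (X : S) : flipAt p (flipAt p X) = X := by
  funext q; by_cases h : q = p <;> simp [flipAt, h]

theorem continuous_fop : Continuous fun z : S × S => fop z.1 z.2 := by
  refine continuous_pi fun p => ?_
  let e : Bool × Bool → ℕ := fun ab =>
    Nat.pair (Nat.unpair p).1 (perm ab.1 ab.2 (Nat.unpair p).2)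
  have h : Continuous fun z : S × S =>
      ((z.1 (2 * (Nat.unpair p).1), z.1 (2 * (Nat.unpair p).1 + 1)),
        fun ab : Bool × Bool => z.2 (e ab)) := by fun_prop
  exact (continuous_of_discreteTopology
    (f := fun q : (Bool × Bool) × (Bool × Bool → Bool) => q.2 q.1)).comp h

theorem continuous_tog (A : S) : Continuous (tog A) :=
  continuous_pi fun p => (continuous_of_discreteTopology
    (f := fun b : Bool => xor b (A (Nat.unpair p).2))).comp (continuous_apply p)

theorem continuous_flipAt (p : ℕ) : Continuous (flipAt p) := by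
  refine continuous_pi fun q => ?_
  by_cases h : q = p
  · simp only [flipAt, h, if_true]
    exact (continuous_of_discreteTopology (f := fun b : Bool => !b)).comp (continuous_apply p)
  · simpa [flipAt, h] using continuous_apply q

theorem measurable_fop : Measurable (fun z : S × S => fop z.1 z.2) := continuous_fop.measurable

theorem measurable_tog (A : S) : Measurable (tog A) := (continuous_tog A).measurable

theorem measurable_flipAt (p : ℕ) : Measurable (flipAt p) := (continuous_flipAt p).measurable

/-- Bit `i` of a list, completed by `false`. -/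
def bit (l : List Bool) (i : ℕ) : Bool := l.getD i false

theorem bit_pref (Y : S) {i n : ℕ} (h : i < n) : bit (pref Y n) i = Y i := by
  simp [bit, List.getD, getElem?_pref Y h]

theorem primrec₂_bit : Primrec₂ bit := Primrec.list_getD false

theorem join_even (A B : S) (n : ℕ) : join A B (2 * n) = A n := by simp [join]

theorem join_odd (A B : S) (n : ℕ) : join A B (2 * n + 1) = B n := by
  simp [join, Nat.add_mod, show (2 * n + 1) / 2 = n by omega]

section Primrec

open Primrec

variable {α : Type*} [Primcodable α] {f : α → ℕ}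

theorem primrec_double (hf : Primrec f) : Primrec fun x => 2 * f x :=
  nat_mul.comp (Primrec.const 2) hf

theorem primrec_fst_unpair (hf : Primrec f) : Primrec fun x => (Nat.unpair (f x)).1 :=
  fst.comp (Primrec.unpair.comp hf)

theorem primrec_snd_unpair (hf : Primrec f) : Primrec fun x => (Nat.unpair (f x)).2 :=
  snd.comp (Primrec.unpair.comp hf)

theorem primrec_perm : Primrec fun x : (Bool × Bool) × ℕ => perm x.1.1 x.1.2 x.2 := by
  have ht : Primrec fun x : (Bool × Bool) × ℕ => x.2 := snd
  have hc (k : ℕ) : Primrec fun _ : (Bool × Bool) × ℕ => k := Primrec.const k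
  have e0 (k : ℕ) : PrimrecPred fun x : (Bool × Bool) × ℕ => x.2 = k := Primrec.eq.comp ht (hc k)
  have e2 (k : ℕ) : PrimrecPred fun x : (Bool × Bool) × ℕ => x.2 % 2 = k :=
    Primrec.eq.comp (nat_mod.comp ht (hc 2)) (hc k)
  have up : Primrec fun x : (Bool × Bool) × ℕ => x.2 + 1 := nat_add.comp ht (hc 1)
  have dn : Primrec fun x : (Bool × Bool) × ℕ => x.2 - 1 := nat_sub.comp ht (hc 1)
  have p10 := Primrec.ite (e2 0) up dn
  have p01 := Primrec.ite (e0 0) (hc 0) (Primrec.ite (e2 1) up dn)
  have p11 := Primrec.ite (e0 0) (hc 1) (Primrec.ite (e0 1) (hc 0) ht)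
  have ha : Primrec fun x : (Bool × Bool) × ℕ => x.1.1 := fst.comp fst
  have hb : Primrec fun x : (Bool × Bool) × ℕ => x.1.2 := snd.comp fst
  refine (cond ha (cond hb p11 p10) (cond hb p01 ht)).of_eq fun x => ?_
  obtain ⟨⟨a, b⟩, t⟩ := x
  cases a <;> cases b <;> simp [perm]

end Primrec

theorem red_fop (P X : S) : Red (fop P X) (join P X) := by
  let g : ℕ → List Bool → Bool := fun n l =>
    bit l (2 * Nat.pair (Nat.unpair n).1
      (perm (bit l (2 * (2 * (Nat.unpair n).1))) (bit l (2 * (2 * (Nat.unpair n).1 + 1)))
        (Nat.unpair n).2) + 1)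
  let u : ℕ → ℕ := fun n =>
    2 * Nat.pair (Nat.unpair n).1 ((Nat.unpair n).2 + 2) + 4 * (Nat.unpair n).1 + 4
  have hu : Computable u := by
    refine Primrec.to_comp ?_
    exact Primrec.nat_add.comp (Primrec.nat_add.comp
      (primrec_double (Primrec₂.natPair.comp (primrec_fst_unpair Primrec.id)
        (Primrec.nat_add.comp (primrec_snd_unpair Primrec.id) (Primrec.const 2))))
      (Primrec.nat_mul.comp (Primrec.const 4) (primrec_fst_unpair Primrec.id))) (Primrec.const 4)
  have hg : Computable₂ g := by
    refine Primrec₂.to_comp ?_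
    have m : Primrec fun z : ℕ × List Bool => (Nat.unpair z.1).1 :=
      primrec_fst_unpair Primrec.fst
    have t : Primrec fun z : ℕ × List Bool => (Nat.unpair z.1).2 :=
      primrec_snd_unpair Primrec.fst
    have hl : Primrec fun z : ℕ × List Bool => z.2 := Primrec.snd
    have a := primrec₂_bit.comp hl (primrec_double (primrec_double m))
    have b := primrec₂_bit.comp hl
      (primrec_double (Primrec.nat_add.comp (primrec_double m) (Primrec.const 1)))
    exact primrec₂_bit.comp hl (Primrec.nat_add.comp
      (primrec_double (Primrec₂.natPair.comp m (primrec_perm.comp ((a.pair b).pair t))))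
      (Primrec.const 1))
  obtain ⟨φ, hφ⟩ := exists_fn_of_use u g hu hg
  have e : (fun n => g n (pref (join P X) (u n))) = fop P X := by
    funext n
    have h3 (a b : Bool) : Nat.pair (Nat.unpair n).1 (perm a b (Nat.unpair n).2) <
        Nat.pair (Nat.unpair n).1 ((Nat.unpair n).2 + 2) :=
      Nat.pair_lt_pair_right _ (by have := perm_le a b (Nat.unpair n).2; omega)
    simp only [g]
    rw [bit_pref (join P X) (i := 2 * (2 * (Nat.unpair n).1)) (by simp only [u]; omega),
      bit_pref (join P X) (i := 2 * (2 * (Nat.unpair n).1 + 1)) (by simp only [u]; omega),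
      join_even, join_even]
    have h4 := h3 (P (2 * (Nat.unpair n).1)) (P (2 * (Nat.unpair n).1 + 1))
    rw [bit_pref _ (by simp only [u]; omega), join_odd]
    rfl
  exact ⟨φ, e ▸ hφ _⟩

theorem red_tog (A X : S) : Red (tog A X) (join X A) := by
  let g : ℕ → List Bool → Bool := fun n l =>
    xor (bit l (2 * n)) (bit l (2 * (Nat.unpair n).2 + 1))
  let u : ℕ → ℕ := fun n => 2 * n + 2 * (Nat.unpair n).2 + 2
  have hu : Computable u := by
    refine Primrec.to_comp ?_
    exact Primrec.nat_add.comp (Primrec.nat_add.comp (primrec_double Primrec.id)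
      (primrec_double (primrec_snd_unpair Primrec.id))) (Primrec.const 2)
  have hg : Computable₂ g := by
    refine Primrec₂.to_comp ?_
    exact (Primrec.dom_bool₂ xor).comp
      (primrec₂_bit.comp Primrec.snd (primrec_double Primrec.fst))
      (primrec₂_bit.comp Primrec.snd (Primrec.nat_add.comp
        (primrec_double (primrec_snd_unpair Primrec.fst)) (Primrec.const 1)))
  obtain ⟨φ, hφ⟩ := exists_fn_of_use u g hu hg
  have e : (fun n => g n (pref (join X A) (u n))) = tog A X := by
    funext n
    simp only [g]
    rw [bit_pref _ (by simp only [u]; omega), bit_pref _ (by simp only [u]; omega), join_even,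
      join_odd]
    rfl
  exact ⟨φ, e ▸ hφ _⟩

theorem red_pp (w : W) (c : Fin 3) : Red (pp w c) (enc w) := by
  have h : Red (join w.1.1 (join w.1.2.1 w.1.2.2)) (enc w) := red_join_left _ _
  have h' : Red (join w.1.2.1 w.1.2.2) (enc w) := (red_join_right _ _).trans h
  fin_cases c
  · exact (red_join_left _ _).trans h
  · exact (red_join_left _ _).trans h'
  · exact (red_join_right _ _).trans h'

theorem red_fst_snd (w : W) : Red w.2.1 (enc w) ∧ Red w.2.2 (enc w) :=
  ⟨(red_join_left _ _).trans (red_join_right _ _),
    (red_join_right _ _).trans (red_join_right _ _)⟩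

/-- Addition of `A` as a homeomorphism. -/
def togHomeo (A : S) : S ≃ₜ S where
  toFun := tog A
  invFun := tog A
  left_inv := tog_tog A
  right_inv := tog_tog A
  continuous_toFun := continuous_tog A
  continuous_invFun := continuous_tog A

/-- A flip as a homeomorphism. -/
def flipHomeo (p : ℕ) : S ≃ₜ S where
  toFun := flipAt p
  invFun := flipAt p
  left_inv := flipAt_flipAt p
  right_inv := flipAt_flipAt p
  continuous_toFun := continuous_flipAt p
  continuous_invFun := continuous_flipAt p

/-- The join as a homeomorphism. -/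
def joinHomeo : S × S ≃ₜ S where
  toFun z := join z.1 z.2
  invFun Z := (fun n => Z (2 * n), fun n => Z (2 * n + 1))
  left_inv z := by
    refine Prod.ext ?_ ?_ <;> funext n <;> simp [join_even, join_odd]
  right_inv Z := by
    funext n
    rcases Nat.mod_two_eq_zero_or_one n with h | h
    · simp [join, h, show 2 * (n / 2) = n by omega]
    · simp [join, h, show 2 * (n / 2) + 1 = n by omega]
  continuous_toFun := by
    refine continuous_pi fun n => ?_
    by_cases h : n % 2 = 0
    · simp only [join, h, if_pos]; fun_prop
    · simp only [join, h, if_false]; fun_prop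
  continuous_invFun := by fun_prop

/-- The encoding as a homeomorphism. -/
def encHomeo : W ≃ₜ S :=
  ((((Homeomorph.refl S).prodCongr joinHomeo).trans joinHomeo).prodCongr joinHomeo).trans joinHomeo

theorem encHomeo_apply (w : W) : encHomeo w = enc w := rfl

theorem isMeagre_preimage_homeo {α β : Type*} [TopologicalSpace α] [TopologicalSpace β]
    (e : α ≃ₜ β) {B : Set β} (h : IsMeagre B) : IsMeagre (e ⁻¹' B) :=
  h.preimage_of_isOpenMap e.continuous e.isOpenMap

theorem isMeagre_preimage_tog (A : S) {B : Set S} (h : IsMeagre B) : IsMeagre (tog A ⁻¹' B) :=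
  isMeagre_preimage_homeo (togHomeo A) h

theorem isMeagre_preimage_flipAt (p : ℕ) {B : Set S} (h : IsMeagre B) :
    IsMeagre (flipAt p ⁻¹' B) :=
  isMeagre_preimage_homeo (flipHomeo p) h

theorem isMeagre_preimage_enc {B : Set S} (h : IsMeagre B) : IsMeagre (enc ⁻¹' B) :=
  isMeagre_preimage_homeo encHomeo h

/-- The inverse of the derived operation of a letter. -/
def dopInv (P : Fin 3 → S) (Q : S) (c : Fin 3) (X : S) : S := fop (P c) (fop Q X)

/-- The inverse of a word. -/
def wunapply (P : Fin 3 → S) (Q : S) : List (Fin 3) → S → S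
  | [], X => X
  | c :: u, X => wunapply P Q u (dopInv P Q c X)

theorem wapply_cons (P : Fin 3 → S) (Q : S) (c : Fin 3) (u : List (Fin 3)) (X : S) :
    wapply P Q (c :: u) X = fop Q (fop (P c) (wapply P Q u X)) := rfl

theorem wunapply_wapply (P : Fin 3 → S) (Q : S) :
    ∀ (u : List (Fin 3)) (X : S), wunapply P Q u (wapply P Q u X) = X
  | [], _ => rfl
  | c :: u, X => by
    rw [wapply_cons, wunapply, dopInv, fop_fop, fop_fop, wunapply_wapply P Q u X]

theorem wapply_wunapply (P : Fin 3 → S) (Q : S) :
    ∀ (u : List (Fin 3)) (X : S), wapply P Q u (wunapply P Q u X) = X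
  | [], _ => rfl
  | c :: u, X => by
    rw [wapply_cons, wunapply, wapply_wunapply P Q u, dopInv, fop_fop, fop_fop]

theorem continuous_pp (c : Fin 3) : Continuous fun w : W => pp w c := by
  fin_cases c <;> simp only [pp] <;> fun_prop

theorem continuous_wapply : ∀ u : List (Fin 3), Continuous fun z : W × S =>
    wapply (pp z.1) z.1.2.1 u z.2
  | [] => continuous_snd
  | c :: u => by
    simp only [wapply_cons]
    exact continuous_fop.comp ((continuous_fst.snd.fst).prodMk
      (continuous_fop.comp (((continuous_pp c).comp continuous_fst).prodMk (continuous_wapply u))))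

theorem continuous_wunapply : ∀ u : List (Fin 3), Continuous fun z : W × S =>
    wunapply (pp z.1) z.1.2.1 u z.2
  | [] => continuous_snd
  | c :: u => by
    simp only [wunapply, dopInv]
    exact (continuous_wunapply u).comp (continuous_fst.prodMk
      (continuous_fop.comp (((continuous_pp c).comp continuous_fst).prodMk
        (continuous_fop.comp ((continuous_fst.snd.fst).prodMk continuous_snd)))))

/-- Replace the configuration. -/
def setX (w : W) (X : S) : W := (w.1, w.2.1, X)

theorem pp_setX (w : W) (X : S) : pp (setX w X) = pp w := by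
  funext c; fin_cases c <;> rfl

/-- A word acting on the configuration, as a homeomorphism of `W`. -/
def wordHomeo (u : List (Fin 3)) : W ≃ₜ W where
  toFun w := setX w (wapply (pp w) w.2.1 u w.2.2)
  invFun w := setX w (wunapply (pp w) w.2.1 u w.2.2)
  left_inv w := by
    simp only [pp_setX]
    simp only [setX]
    rw [wunapply_wapply]
  right_inv w := by
    simp only [pp_setX]
    simp only [setX]
    rw [wapply_wunapply]
  continuous_toFun := continuous_fst.prodMk (continuous_snd.fst.prodMk
    ((continuous_wapply u).comp (continuous_id.prodMk continuous_snd.snd)))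
  continuous_invFun := continuous_fst.prodMk (continuous_snd.fst.prodMk
    ((continuous_wunapply u).comp (continuous_id.prodMk continuous_snd.snd)))

theorem isMeagre_preimage_wordQ (u : List (Fin 3)) {B : Set (S × S)} (h : IsMeagre B) :
    IsMeagre ((fun w : W => (w.2.1, wapply (pp w) w.2.1 u w.2.2)) ⁻¹' B) :=
  isMeagre_preimage_homeo (wordHomeo u) (h.preimage_of_isOpenMap continuous_snd isOpenMap_snd)

theorem isMeagre_preimage_word (c : Fin 3) (u : List (Fin 3)) {B : Set (S × S)} (h : IsMeagre B) :
    IsMeagre ((fun w : W => (pp w c, wapply (pp w) w.2.1 u w.2.2)) ⁻¹' B) := by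
  have hc : Continuous fun w : W => (pp w c, w.2.2) :=
    (continuous_pp c).prodMk continuous_snd.snd
  have ho : IsOpenMap fun w : W => (pp w c, w.2.2) := by
    have hx : IsOpenMap fun z : S × S => z.2 := isOpenMap_snd
    fin_cases c
    · exact isOpenMap_fst.prodMap hx
    · exact (isOpenMap_fst.comp isOpenMap_snd).prodMap hx
    · exact (isOpenMap_snd.comp isOpenMap_snd).prodMap hx
  have h1 := isMeagre_preimage_homeo (wordHomeo u) (h.preimage_of_isOpenMap hc ho)
  convert h1 using 1
  ext w
  have hp : pp (w.1, w.2.1, wapply (pp w) w.2.1 u w.2.2) = pp w := pp_setX w _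
  simp [wordHomeo, setX, hp]

theorem isMeagre_preimage_wapply (u : List (Fin 3)) {B : Set S} (h : IsMeagre B) :
    IsMeagre ((fun w : W => wapply (pp w) w.2.1 u w.2.2) ⁻¹' B) :=
  isMeagre_preimage_wordQ u (h.preimage_of_isOpenMap continuous_snd isOpenMap_snd)

theorem isMeagre_preimage_wapply_tog (A : S) (u : List (Fin 3)) {B : Set S} (h : IsMeagre B) :
    IsMeagre ((fun w : W => wapply (pp w) w.2.1 u (tog A w.2.2)) ⁻¹' B) := by
  have h1 := isMeagre_preimage_homeo
    ((Homeomorph.refl (S × S × S)).prodCongr ((Homeomorph.refl S).prodCongr (togHomeo A)))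
    (isMeagre_preimage_wapply u h)
  convert h1 using 1
  ext w
  have hp : pp (Prod.map id (Prod.map id (tog A)) w) = pp w := pp_setX w _
  simp [togHomeo, hp]

/-- The parameter string: `p0` on columns below `K`, `(x, y)` at column `K`, identity on `(K, K')`. -/
def parList (p0 : List Bool) (K K' : ℕ) (x y : Bool) : List Bool :=
  p0 ++ x :: y :: List.replicate (2 * (K' - K - 1)) false

theorem parList_spec {p0 : List Bool} {K K' : ℕ} (hp : p0.length = 2 * K) (hK : K < K')
    (x y : Bool) {R : S} (hR : R ∈ cyl (parList p0 K K' x y)) :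
    (∀ i (h : i < p0.length), R i = p0[i]) ∧ R (2 * K) = x ∧ R (2 * K + 1) = y ∧
      ∀ i, 2 * K + 2 ≤ i → i < 2 * K' → R i = false := by
  rw [mem_cyl] at hR
  have hlen : (parList p0 K K' x y).length = 2 * K' := by simp [parList, hp]; omega
  refine ⟨fun i h => ?_, ?_, ?_, fun i h1 h2 => ?_⟩
  · rw [hR i (by omega)]; simp [parList, List.getElem_append_left h]
  · rw [hR _ (by omega)]; simp [parList, List.getElem_append_right, hp]
  · rw [hR _ (by omega)]; simp [parList, List.getElem_append_right, hp]
  · obtain ⟨j, rfl⟩ : ∃ j, i = p0.length + (j + 1 + 1) := ⟨i - (2 * K + 2), by omega⟩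
    rw [hR _ (by omega)]
    simp [parList, List.getElem_append_right]

theorem wperm_cons (c : Fin 3) (u : List (Fin 3)) : wperm (c :: u) = wperm u ∘ letter c := rfl

theorem wperm_append : ∀ u v : List (Fin 3), wperm (u ++ v) = wperm v ∘ wperm u
  | [], _ => rfl
  | c :: u, v => by
    rw [List.cons_append, wperm_cons, wperm_cons, wperm_append u v, Function.comp_assoc]

/-- Effect of a word on columns below `K'` when all parameters are in their cylinders:
columns other than `K` are fixed and column `K` is permuted by `wperm`. -/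
theorem wapply_low {p0 : List Bool} {K K' : ℕ} (hp : p0.length = 2 * K) (hK : K < K')
    {P : Fin 3 → S} {Q : S} (hP : ∀ c, P c ∈ cyl (parList p0 K K' (code c).1 (code c).2))
    (hQ : Q ∈ cyl (parList p0 K K' false false)) (u : List (Fin 3)) (X : S) {k : ℕ} (hk : k < K')
    (t : ℕ) :
    wapply P Q u X (Nat.pair k t) =
      X (Nat.pair k (if k = K then wperm u t else t)) := by
  obtain ⟨hQ1, hQ2, hQ3, hQ4⟩ := parList_spec hp hK _ _ hQ
  induction u generalizing t with
  | nil => simp [wapply, wperm]
  | cons c u ih =>
    obtain ⟨hP1, hP2, hP3, hP4⟩ := parList_spec hp hK _ _ (hP c)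
    rw [wapply_cons, fop_apply, fop_apply, ih]
    rcases lt_trichotomy k K with h | rfl | h
    · rw [hQ1 _ (by omega), hQ1 _ (by omega), hP1 _ (by omega), hP1 _ (by omega), perm_perm]
      simp [h.ne]
    · rw [hQ2, hQ3, hP2, hP3]
      simp [perm, letter, wperm_cons]
    · rw [hQ4 _ (by omega) (by omega), hQ4 _ (by omega) (by omega),
        hP4 _ (by omega) (by omega), hP4 _ (by omega) (by omega)]
      simp [h.ne', perm]

theorem letter_a (t : ℕ) : letter 0 t = if t % 2 = 0 then t + 1 else t - 1 := rfl

theorem letter_b (t : ℕ) :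
    letter 1 t = if t = 0 then 0 else if t % 2 = 1 then t + 1 else t - 1 := rfl

theorem letter_tau (t : ℕ) :
    letter 2 t = if t = 0 then 1 else if t = 1 then 0 else t := rfl

theorem perm_injective (a b : Bool) : Function.Injective (perm a b) :=
  Function.LeftInverse.injective (perm_perm a b)

theorem letter_letter (c : Fin 3) (t : ℕ) : letter c (letter c t) = t := perm_perm _ _ t

theorem wperm_word : ∀ n : ℕ, wperm (word n) = ⇑(Equiv.swap 0 n)
  | 0 => by
    funext t
    simp [word, wperm]
  | 1 => by
    funext t
    simp [word, wperm, letter_tau, Equiv.swap_apply_def]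
  | n + 2 => by
    have ih := wperm_word (n + 1)
    funext t
    let e : Fin 3 → Equiv.Perm ℕ := fun c => ⟨letter c, letter c, letter_letter c, letter_letter c⟩
    by_cases h : (n + 1) % 2 = 1
    · have e0 : e 1 0 = 0 := by simp [e, letter_b]
      have e1 : e 1 (n + 1) = n + 2 := by simp [e, letter_b, h]
      have key := ((e 1).injective.map_swap 0 (n + 1) (e 1 t))
      rw [e0, e1, show e 1 (e 1 t) = t from letter_letter 1 t] at key
      rw [← key]
      simp only [word, h, if_true, List.cons_append, wperm_cons, wperm_append,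
        Function.comp_apply, ih]
      simp [wperm, e]
    · have e0 : e 2 (e 0 0) = 0 := by simp [e, letter_a, letter_tau]
      have e1 : e 2 (e 0 (n + 1)) = n + 2 := by
        have : (n + 1) % 2 = 0 := by omega
        simp [e, letter_a, letter_tau, this]
      have key := ((e 0).trans (e 2)).injective.map_swap 0 (n + 1) (e 0 (e 2 t))
      simp only [Equiv.trans_apply] at key
      rw [e0, e1, show e 0 (e 0 (e 2 t)) = e 2 t from letter_letter 0 _,
        show e 2 (e 2 t) = t from letter_letter 2 t] at key
      rw [← key]
      simp only [word, h, if_false, List.cons_append, wperm_cons, wperm_append,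
        Function.comp_apply, ih]
      simp [wperm, e]

theorem wperm_word_zero (n : ℕ) : wperm (word n) 0 = n := by simp [wperm_word]

theorem wperm_word_low (n t : ℕ) (h0 : 0 < t) (h : t < n) : wperm (word n) t = t := by
  rw [wperm_word, Equiv.swap_apply_of_ne_of_ne h0.ne' h.ne]

end Vale.Agent.P327
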