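/-
P327: the law, and separation of one flipped bit.
-/
import Vale.Agent.P327.Func
import Vale.Agent.P327.Category
import Vale.Agent.P327.Ops

namespace Vale.Agent.P327

open Set

/-- The labels: seven indices of Borel maps and four functionals. -/
abbrev Label := (ℕ × ℕ × ℕ × ℕ × ℕ × ℕ × ℕ) × (Fn × Fn × Fn × Fn)

/-- The Borel law satisfied by a truthful label at `(P, X)`. -/
def Law (H K : ℕ → S → S) (A : S) : Label → S × S → Prop
  | ((i, j, j', m, m', l, l'), (e1, e2, e3, e4)), (P, X) =>
    Out e1 (join (H i P) (H j X)) (H m (fop P X)) ∧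
    Out e2 (join (H i P) (H m (fop P X))) (H j X) ∧
    Out e3 (join (H i P) (H j' (tog A X))) (H m' (fop P (tog A X))) ∧
    Out e4 (join (H i P) (H m' (fop P (tog A X)))) (H j' (tog A X)) ∧
    K l (H j X) = X ∧ K l' (H j' (tog A X)) = tog A X

theorem measurable_join {α : Type*} [MeasurableSpace α] {f g : α → S} (hf : Measurable f)
    (hg : Measurable g) : Measurable (fun z => join (f z) (g z)) := by
  refine measurable_pi_iff.2 fun n => ?_
  unfold join
  by_cases h : n % 2 = 0
  · simp only [h, ↓reduceIte]; exact (measurable_pi_apply _).comp hf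
  · simp only [h, ↓reduceIte]; exact (measurable_pi_apply _).comp hg

theorem measurableSet_eqS {α : Type*} [MeasurableSpace α] {f g : α → S} (hf : Measurable f)
    (hg : Measurable g) : MeasurableSet {z | f z = g z} := by
  have e : {z | f z = g z} = ⋂ n, {z | f z n = g z n} := by
    ext z; simp [funext_iff]
  rw [e]
  exact MeasurableSet.iInter fun n =>
    measurableSet_eq_fun ((measurable_pi_apply n).comp hf) ((measurable_pi_apply n).comp hg)

theorem measurableSet_law {H K : ℕ → S → S} (hH : ∀ i, Measurable (H i))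
    (hK : ∀ l, Measurable (K l)) (A : S) (lab : Label) :
    MeasurableSet {z | Law H K A lab z} := by
  obtain ⟨⟨i, j, j', m, m', l, l'⟩, e1, e2, e3, e4⟩ := lab
  have hP : Measurable (fun z : S × S => H i z.1) := (hH i).comp measurable_fst
  have hT : Measurable (fun z : S × S => tog A z.2) := (measurable_tog A).comp measurable_snd
  have hX : Measurable (fun z : S × S => H j z.2) := (hH j).comp measurable_snd
  have hX' : Measurable (fun z : S × S => H j' (tog A z.2)) := (hH j').comp hT
  have hY : Measurable (fun z : S × S => H m (fop z.1 z.2)) := (hH m).comp measurable_fop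
  have hY' : Measurable (fun z : S × S => H m' (fop z.1 (tog A z.2))) :=
    (hH m').comp (measurable_fop.comp (measurable_fst.prodMk hT))
  simp only [Law, ofPred_and]
  refine (measurableSet_out e1 (measurable_join hP hX) hY).inter
    ((measurableSet_out e2 (measurable_join hP hY) hX).inter
    ((measurableSet_out e3 (measurable_join hP hX') hY').inter
    ((measurableSet_out e4 (measurable_join hP hY') hX').inter
    ((measurableSet_eqS ((hK l).comp hX) measurable_snd).inter
      (measurableSet_eqS ((hK l').comp hX') hT)))))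

theorem flipAt_ne (q : ℕ) (X : S) : flipAt q X ≠ X := by
  intro h
  simpa [flipAt] using congrFun h q

theorem flipAt_mem_cyl {q : ℕ} {s : List Bool} (hq : s.length ≤ q) {X : S} (hX : X ∈ cyl s) :
    flipAt q X ∈ cyl s := by
  rw [mem_cyl] at hX ⊢
  intro p hp
  simp only [flipAt, if_neg (show p ≠ q by omega), hX p hp]

theorem not_isMeagre_cyl (s : List Bool) : ¬ IsMeagre (cyl s) :=
  not_isMeagre_of_isOpen (isOpen_cyl s) (cyl_nonempty s)

/-- A Borel map with a left inverse on a comeagre part of `cyl s0` separates one flipped bit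
by one output bit, comeagerly in a subcylinder. -/
theorem exists_sep {g : S → S} (hg : Measurable g) (κ : S → S) {s0 s : List Bool} (hs : s0 <+: s)
    (q : ℕ) (hq : s0.length ≤ q) (L : ℕ) (h : IsMeagre (cyl s0 \ {X | κ (g X) = X})) :
    ∃ t i b, s <+: t ∧ L ≤ t.length ∧
      IsMeagre (cyl t \ {X | g X i = b ∧ g (flipAt q X) i = !b}) := by
  set M : Set S := cyl s0 \ {X | κ (g X) = X} with hM
  set B : ℕ × Bool → Set S := fun z => {X | g X z.1 = z.2 ∧ g (flipAt q X) z.1 = !z.2} with hB
  have key : ∃ z, ¬ IsMeagre (B z ∩ cyl s) := by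
    by_contra hne
    simp only [not_exists, not_not] at hne
    refine not_isMeagre_cyl s ?_
    refine IsMeagre.mono ?_ (((h.union (isMeagre_preimage_flipAt q h)).union
      (isMeagre_iUnion hne)))
    intro X hX
    by_cases hMX : X ∈ M ∨ flipAt q X ∈ M
    · exact Or.inl hMX
    · simp only [not_or, hM, mem_sdiff, mem_ofPred_eq, not_and, not_not] at hMX
      have h0 := cyl_mono hs hX
      have e1 := hMX.1 h0
      have e2 := hMX.2 (flipAt_mem_cyl hq h0)
      have hne' : g X ≠ g (flipAt q X) := fun e =>
        flipAt_ne q X (by rw [← e2, ← e, e1])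
      obtain ⟨i, hi⟩ := Function.ne_iff.1 hne'
      refine Or.inr (mem_iUnion.2 ⟨(i, g X i), ⟨rfl, ?_⟩, hX⟩)
      revert hi
      cases g X i <;> cases g (flipAt q X) i <;> simp
  obtain ⟨⟨i, b⟩, hib⟩ := key
  have hmB : MeasurableSet (B (i, b)) := by
    simp only [hB, ofPred_and]
    exact (measurableSet_eq_fun ((measurable_pi_apply i).comp hg) measurable_const).inter
      (measurableSet_eq_fun
        ((measurable_pi_apply i).comp (hg.comp (measurable_flipAt q))) measurable_const)
  obtain ⟨t, ht, hL, hm⟩ := exists_cyl_ae hmB hib L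
  exact ⟨t, i, b, ht, hL, hm⟩

/-- On the good set, the separating bit reads the flipped position. -/
theorem sep_reads {g : S → S} {t : List Bool} {q i : ℕ} {b v : Bool} {Z : S}
    (hqv : t[q]? = some v)
    (h1 : Z ∈ cyl t → g Z i = b ∧ g (flipAt q Z) i = !b)
    (h2 : flipAt q Z ∈ cyl t → g (flipAt q Z) i = b ∧ g (flipAt q (flipAt q Z)) i = !b)
    (hagree : ∀ p (hp : p < t.length), p ≠ q → Z p = t[p]) :
    g Z i = xor b (xor (Z q) v) := by
  obtain ⟨hqt, hv⟩ := List.getElem?_eq_some_iff.1 hqv
  by_cases hZ : Z q = v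
  · have hmem : Z ∈ cyl t := by
      refine mem_cyl.2 fun p hp => ?_
      by_cases hpq : p = q
      · subst hpq; rw [hZ, hv]
      · exact hagree p hp hpq
    rw [(h1 hmem).1, hZ]; simp
  · have hmem : flipAt q Z ∈ cyl t := by
      refine mem_cyl.2 fun p hp => ?_
      by_cases hpq : p = q
      · subst hpq
        simp only [flipAt, ↓reduceIte, hv]
        cases v <;> simpa using hZ
      · simp only [flipAt, if_neg hpq, hagree p hp hpq]
    have := (h2 hmem).2
    rw [flipAt_flipAt] at this
    rw [this]
    cases b <;> cases hh : Z q <;> cases v <;> simp_all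

end Vale.Agent.P327
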