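/-
P327: the box, the projections of the truth set, the parameter space.
-/
import Vale.Agent.P327.Sep
import Vale.Agent.P327.Cover

namespace Vale.Agent.P327

open Set

/-- A homeomorphism of `S` given by `tog`. -/
def togH (A : S) : S ≃ₜ S where
  toFun := tog A
  invFun := tog A
  left_inv := tog_tog A
  right_inv := tog_tog A
  continuous_toFun := by
    refine continuous_pi fun p => ?_
    exact (continuous_of_discreteTopology (f := fun x : Bool => xor x (A (Nat.unpair p).2))).comp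
      (continuous_apply p)
  continuous_invFun := by
    refine continuous_pi fun p => ?_
    exact (continuous_of_discreteTopology (f := fun x : Bool => xor x (A (Nat.unpair p).2))).comp
      (continuous_apply p)

/-- `(w, X) ↦ (parameters, X + A)` on `W`. -/
def togW (A : S) : W ≃ₜ W :=
  (Homeomorph.refl (S × S × S)).prodCongr ((Homeomorph.refl S).prodCongr (togH A))

theorem pp_togW (A : S) (w : W) : pp (togW A w) = pp w := by
  funext c; fin_cases c <;> rfl

theorem isMeagre_preimage_wordT (A : S) (c : Fin 3) (u : List (Fin 3)) {B : Set (S × S)}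
    (h : IsMeagre B) : IsMeagre
      ((fun w : W => (pp w c, tog A (wapply (pp w) w.2.1 u (tog A w.2.2)))) ⁻¹' B) := by
  have h1 := isMeagre_preimage_homeo ((Homeomorph.refl S).prodCongr (togH A)) h
  have h2 := isMeagre_preimage_homeo (togW A) (isMeagre_preimage_word c u h1)
  refine IsMeagre.mono ?_ h2
  intro w hw
  simp only [mem_preimage, pp_togW] at hw ⊢
  exact hw

theorem isMeagre_preimage_wordQT (A : S) (u : List (Fin 3)) {B : Set (S × S)}
    (h : IsMeagre B) : IsMeagre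
      ((fun w : W => (w.2.1, tog A (wapply (pp w) w.2.1 u (tog A w.2.2)))) ⁻¹' B) := by
  have h1 := isMeagre_preimage_homeo ((Homeomorph.refl S).prodCongr (togH A)) h
  have h2 := isMeagre_preimage_homeo (togW A) (isMeagre_preimage_wordQ u h1)
  refine IsMeagre.mono ?_ h2
  intro w hw
  simp only [mem_preimage, pp_togW] at hw ⊢
  exact hw

/-- A truthful label with comeagre law in some box, everywhere nonmeagre truth on both sides. -/
theorem exists_box {F G : S → S} (h : IsAuto F G) {H K : ℕ → S → S}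
    (hH : ∀ i, Measurable (H i)) (hK : ∀ l, Measurable (K l))
    (hcov : ∀ X, ∃ i, H i X = F X) (hinv : ∀ X, ∃ l, K l (F X) = X) (A : S) :
    ∃ (lab : Label) (p0 x0 : List Bool) (N : ℕ), p0.length = 2 * N ∧ x0.length ≤ N ∧
      IsMeagre ((cyl p0 ×ˢ cyl x0) \ {z | Law H K A lab z}) ∧
      ENM {P | F P = H lab.1.1 P} (cyl p0) ∧
      ENM {X | F X = H lab.1.2.1 X ∧ F (tog A X) = H lab.1.2.2.1 (tog A X)} (cyl x0) := by
  set T : Label → Set (S × S) := fun lab => {z | Law H K A lab z ∧ F z.1 = H lab.1.1 z.1 ∧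
    F z.2 = H lab.1.2.1 z.2 ∧ F (tog A z.2) = H lab.1.2.2.1 (tog A z.2)} with hT
  have hred : ∀ P X : S, Red (F (fop P X)) (join (F P) (F X)) := fun P X =>
    ((h.mapF _ _).2 (red_fop P X)).trans (h.join_le P X)
  have hred' : ∀ P X : S, Red (F X) (join (F P) (F (fop P X))) := fun P X => by
    have := hred P (fop P X)
    rwa [fop_fop] at this
  have hall : ∀ z, ∃ lab, z ∈ T lab := by
    rintro ⟨P, X⟩
    obtain ⟨i, hi⟩ := hcov P
    obtain ⟨j, hj⟩ := hcov X
    obtain ⟨j', hj'⟩ := hcov (tog A X)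
    obtain ⟨m, hm⟩ := hcov (fop P X)
    obtain ⟨m', hm'⟩ := hcov (fop P (tog A X))
    obtain ⟨l, hl⟩ := hinv X
    obtain ⟨l', hl'⟩ := hinv (tog A X)
    obtain ⟨e1, he1⟩ := hred P X
    obtain ⟨e2, he2⟩ := hred' P X
    obtain ⟨e3, he3⟩ := hred P (tog A X)
    obtain ⟨e4, he4⟩ := hred' P (tog A X)
    refine ⟨((i, j, j', m, m', l, l'), (e1, e2, e3, e4)), ?_, hi.symm, hj.symm, hj'.symm⟩
    simp only [Law, hi, hj, hj', hm, hm']
    exact ⟨he1, he2, he3, he4, hl, hl'⟩
  obtain ⟨lab, hlab⟩ := exists_nonmeagre_piece T hall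
  obtain ⟨U, hUo, ⟨⟨P1, X1⟩, hz⟩, hU⟩ := exists_enm hlab
  obtain ⟨U1, U2, hU1, hU2, hP1, hX1, hsub⟩ := isOpen_prod_iff.1 hUo P1 X1 hz
  have hn1 : (U1 ∩ cyl []).Nonempty := ⟨P1, hP1, mem_cyl.2 (by simp)⟩
  have hn2 : (U2 ∩ cyl []).Nonempty := ⟨X1, hX1, mem_cyl.2 (by simp)⟩
  obtain ⟨p1, -, -, hp1⟩ := exists_cyl_subset hU1 hn1 0
  obtain ⟨x0, -, -, hx0⟩ := exists_cyl_subset hU2 hn2 0
  set N := p1.length + x0.length
  set p0 := p1 ++ List.replicate (2 * N - p1.length) false with hp0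
  have hlen : p0.length = 2 * N := by simp [hp0]; omega
  have hbox : cyl p0 ×ˢ cyl x0 ⊆ U := fun z hz' =>
    hsub ⟨hp1 (cyl_mono (List.prefix_append _ _) hz'.1), hx0 hz'.2⟩
  have hE : ENM (T lab) (cyl p0 ×ˢ cyl x0) := hU.mono Subset.rfl hbox
  have hlaw : IsMeagre ((cyl p0 ×ˢ cyl x0) \ {z | Law H K A lab z}) :=
    hE.isMeagre_diff ((isOpen_cyl _).prod (isOpen_cyl _))
      (measurableSet_law hH hK A lab).baireMeasurableSet (fun z hz => hz.1)
  refine ⟨lab, p0, x0, N, hlen, Nat.le_add_left _ _, hlaw, ?_, ?_⟩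
  · refine (hE.image_fst (isOpen_cyl _) (isOpen_cyl _) (cyl_nonempty _)).mono ?_ Subset.rfl
    rintro _ ⟨z, hz, rfl⟩
    exact hz.2.1
  · refine (hE.image_snd (isOpen_cyl _) (isOpen_cyl _) (cyl_nonempty _)).mono ?_ Subset.rfl
    rintro _ ⟨z, hz, rfl⟩
    exact hz.2.2

theorem pair_ge_left {p : ℕ} : (Nat.unpair p).1 ≤ p := Nat.unpair_left_le p

theorem parList_length {p0 : List Bool} {K K' : ℕ} (hp : p0.length = 2 * K) (hK : K < K')
    (x y : Bool) : (parList p0 K K' x y).length = 2 * K' := by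
  simp [parList, hp]; omega

theorem cyl_parList_subset (p0 : List Bool) (K K' : ℕ) (x y : Bool) :
    cyl (parList p0 K K' x y) ⊆ cyl p0 :=
  cyl_mono (List.prefix_append _ _)

/-- Words keep the low columns: positions below `N` other than column `K`. -/
theorem wapply_mem_cyl {p0 x0 : List Bool} {K K' : ℕ} (hp : p0.length = 2 * K) (hK : K < K')
    (hx : x0.length ≤ K) {P : Fin 3 → S} {Q : S}
    (hP : ∀ c, P c ∈ cyl (parList p0 K K' (code c).1 (code c).2))
    (hQ : Q ∈ cyl (parList p0 K K' false false)) (u : List (Fin 3)) (A X : S) (hX : X ∈ cyl x0) :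
    wapply P Q u X ∈ cyl x0 ∧ tog A (wapply P Q u (tog A X)) ∈ cyl x0 := by
  rw [mem_cyl] at hX
  constructor <;> refine mem_cyl.2 fun p hp' => ?_
  all_goals
    have hk : (Nat.unpair p).1 < K := lt_of_le_of_lt pair_ge_left (lt_of_lt_of_le hp' hx)
    have := fun Y => wapply_low hp hK hP hQ u Y (lt_trans hk hK) (Nat.unpair p).2
    simp only [if_neg hk.ne, Nat.pair_unpair] at this
    simp only [tog, this, Bool.xor_assoc, Bool.xor_self, Bool.xor_false, hX p hp']

end Vale.Agent.P327
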