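/-
P327: uniform word iteration and the extension search (owner helper1).
-/
import Vale.Agent.P327.Func
import Vale.Agent.P327.Category

namespace Vale.Agent.P327

open TopologicalSpace Set

/-- The longest list of consecutive values of `f`, of length at most `L`. -/
def grow (f : ℕ → Option Bool) : ℕ → List Bool
  | 0 => []
  | L + 1 => if (grow f L).length = L then (f L).elim (grow f L) (fun b => grow f L ++ [b])
      else grow f L

theorem length_grow_le (f : ℕ → Option Bool) : ∀ L, (grow f L).length ≤ L
  | 0 => le_rfl
  | L + 1 => by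
    have h := length_grow_le f L
    rw [grow]
    cases hf : f L <;> split_ifs <;> simp <;> omega

theorem grow_succ_prefix (f : ℕ → Option Bool) (L : ℕ) : grow f L <+: grow f (L + 1) := by
  conv_rhs => rw [grow]
  cases hf : f L <;> split_ifs <;> simp

theorem grow_prefix (f : ℕ → Option Bool) {L L' : ℕ} (h : L ≤ L') : grow f L <+: grow f L' := by
  induction L', h using Nat.le_induction with
  | base => exact List.prefix_rfl
  | succ n _ ih => exact ih.trans (grow_succ_prefix f n)

theorem grow_full {f : ℕ → Option Bool} : ∀ {L : ℕ}, (∀ m < L, (f m).isSome) →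
    (grow f L).length = L
  | 0, _ => rfl
  | L + 1, h => by
    have h1 := grow_full (L := L) fun m hm => h m (by omega)
    obtain ⟨b, hb⟩ := Option.isSome_iff_exists.1 (h L (by omega))
    simp [grow, h1, hb]

theorem grow_getElem {f : ℕ → Option Bool} : ∀ {L m : ℕ} {b : Bool},
    (grow f L)[m]? = some b → f m = some b
  | 0, m, b, h => by simp [grow] at h
  | L + 1, m, b, h => by
    by_cases hl : (grow f L).length = L
    · cases hf : f L with
      | none => simp [grow, hl, hf] at h; exact grow_getElem h
      | some c =>
        simp [grow, hl, hf, List.getElem?_append] at h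
        split_ifs at h with hm
        · exact grow_getElem (by simpa [hm] using h)
        · obtain rfl : m = L := by
            by_contra hne
            have : m - L ≠ 0 := by omega
            simp [this] at h
          simpa [hf] using h
    · simp [grow, hl] at h; exact grow_getElem h

theorem grow_isSome {f : ℕ → Option Bool} {L m : ℕ} (hm : m < (grow f L).length) :
    (f m).isSome :=
  Option.isSome_iff_exists.2 ⟨_, grow_getElem (List.getElem?_eq_getElem hm)⟩

theorem grow_mono {f g : ℕ → Option Bool} (h : ∀ m b, f m = some b → g m = some b) :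
    ∀ {L L' : ℕ}, L ≤ L' → grow f L <+: grow g L' := by
  intro L L' hL
  refine List.IsPrefix.trans ?_ (grow_prefix g hL)
  have hlen : ∀ K, (grow f K).length ≤ (grow g K).length := fun K => by
    have := grow_full (f := g) (L := (grow f K).length) fun m hm => by
      obtain ⟨b, hb⟩ := Option.isSome_iff_exists.1 (grow_isSome hm)
      simp [h m b hb]
    have := (grow_prefix g (length_grow_le f K)).length_le
    omega
  rw [List.prefix_iff_eq_take]
  refine List.ext_getElem? fun m => ?_
  rw [List.getElem?_take]
  rcases lt_or_ge m (grow f L).length with hm | hm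
  · rw [if_pos hm]
    obtain ⟨b, hb⟩ := Option.isSome_iff_exists.1
      (show ((grow f L)[m]?).isSome by simp [hm])
    have hm' : m < (grow g L).length := lt_of_lt_of_le hm (hlen L)
    have := grow_getElem (List.getElem?_eq_getElem hm')
    rw [h m b (grow_getElem hb)] at this
    rw [hb, List.getElem?_eq_getElem hm', this]
  · rw [if_neg (by omega), List.getElem?_eq_none hm]

theorem prefix_of_values {f : ℕ → Option Bool} {X : S}
    (h : ∀ m b, f m = some b → b = X m) (L : ℕ) : grow f L = pref X (grow f L).length := by
  refine List.ext_getElem? fun m => ?_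
  rcases lt_or_ge m (grow f L).length with hm | hm
  · rw [getElem?_pref X hm, List.getElem?_eq_getElem hm,
      h m _ (grow_getElem (List.getElem?_eq_getElem hm))]
  · rw [List.getElem?_eq_none hm, List.getElem?_eq_none (by simpa using hm)]

/-- A value given on a finite part of the oracle is the final value. -/
theorem Out.sound {φ : Fn} {Y X : S} (h : Out φ Y X) {l : List Bool} (hl : l = pref Y l.length)
    {n : ℕ} {b : Bool} (hb : φ.val l n = some b) : b = X n := by
  obtain ⟨m, hm⟩ := h n
  have h1 := φ.mono (show pref Y m <+: pref Y (max m l.length) from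
    pref_prefix Y (le_max_left _ _)) hm
  have h2 := φ.mono (show l <+: pref Y (max m l.length) from
    hl ▸ pref_prefix Y (le_trans (by rw [length_pref]) (le_max_right _ _))) hb
  rw [h1] at h2
  exact (Option.some.inj h2).symm

/-- `G` gives longer and longer prefixes of `X` from prefixes of `R`. -/
structure Appr (G : List Bool → List Bool) (R X : S) : Prop where
  sound : ∀ M, G (pref R M) = pref X (G (pref R M)).length
  total : ∀ N, ∃ M, N ≤ (G (pref R M)).length

/-- Monotone string functions. -/
def MonoG (G : List Bool → List Bool) : Prop := ∀ ⦃s t : List Bool⦄, s <+: t → G s <+: G t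

/-- The string function of a family of partial values. -/
def growG (f : List Bool → ℕ → Option Bool) (s : List Bool) : List Bool := grow (f s) s.length

theorem monoG_growG {f : List Bool → ℕ → Option Bool}
    (h : ∀ ⦃s t : List Bool⦄, s <+: t → ∀ m b, f s m = some b → f t m = some b) :
    MonoG (growG f) := fun _ _ hst => grow_mono (h hst) hst.length_le

theorem appr_growG {f : List Bool → ℕ → Option Bool} {R X : S}
    (hmono : ∀ ⦃s t : List Bool⦄, s <+: t → ∀ m b, f s m = some b → f t m = some b)
    (hs : ∀ M m b, f (pref R M) m = some b → b = X m)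
    (ht : ∀ m, ∃ M, (f (pref R M) m).isSome) : Appr (growG f) R X := by
  refine ⟨fun M => prefix_of_values (hs M) _, fun N => ?_⟩
  choose M hM using ht
  obtain ⟨B, hB⟩ : ∃ B, ∀ m < N, M m ≤ B :=
    ⟨(Finset.range N).sup M, fun m hm => Finset.le_sup (f := M) (Finset.mem_range.2 hm)⟩
  refine ⟨max B N, ?_⟩
  have h1 := grow_full (f := f (pref R (max B N))) (L := N) fun m hm => by
    obtain ⟨b, hb⟩ := Option.isSome_iff_exists.1 (hM m)
    simp [hmono (pref_prefix R (le_trans (hB m hm) (le_max_left _ _))) m b hb]
  have h2 := (grow_prefix (f (pref R (max B N))) (L := N)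
    (L' := (pref R (max B N)).length) (by simp)).length_le
  simp only [growG]
  omega

/-- Applying a functional to an approximation. -/
def appFn (e : Fn) (G : List Bool → List Bool) : List Bool → List Bool :=
  growG fun s m => e.val (G s) m

theorem monoG_appFn (e : Fn) {G : List Bool → List Bool} (hG : MonoG G) : MonoG (appFn e G) :=
  monoG_growG fun _ _ hst _ _ h => e.mono (hG hst) h

theorem appr_appFn {e : Fn} {G : List Bool → List Bool} {R Y X : S} (hG : MonoG G)
    (hY : Appr G R Y) (he : Out e Y X) : Appr (appFn e G) R X := by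
  refine appr_growG (fun _ _ hst _ _ h => e.mono (hG hst) h)
    (fun M m b h => he.sound (hY.sound M) h) fun m => ?_
  obtain ⟨k, hk⟩ := he m
  obtain ⟨M, hM⟩ := hY.total k
  refine ⟨M, ?_⟩
  rw [e.mono (show pref Y k <+: G (pref R M) by rw [hY.sound M]; exact pref_prefix Y hM) hk]
  rfl

/-- The join of two approximations. -/
def appJoin (G₁ G₂ : List Bool → List Bool) : List Bool → List Bool :=
  growG fun s m => if m % 2 = 0 then (G₁ s)[m / 2]? else (G₂ s)[m / 2]?

theorem getElem?_mono {l₁ l₂ : List Bool} (h : l₁ <+: l₂) {m : ℕ} {b : Bool}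
    (hb : l₁[m]? = some b) : l₂[m]? = some b := by
  obtain ⟨r, rfl⟩ := h
  obtain ⟨hm, he⟩ := List.getElem?_eq_some_iff.1 hb
  rw [List.getElem?_append_left hm, hb]

theorem monoG_appJoin {G₁ G₂ : List Bool → List Bool} (h₁ : MonoG G₁) (h₂ : MonoG G₂) :
    MonoG (appJoin G₁ G₂) := monoG_growG fun s t hst m b h => by
  split_ifs at h ⊢ with hm
  · exact getElem?_mono (h₁ hst) h
  · exact getElem?_mono (h₂ hst) h

theorem Appr.getElem {G : List Bool → List Bool} {R X : S} (h : Appr G R X) {M m : ℕ} {b : Bool}
    (hb : (G (pref R M))[m]? = some b) : b = X m := by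
  obtain ⟨hm, -⟩ := List.getElem?_eq_some_iff.1 hb
  rw [h.sound M, getElem?_pref X hm] at hb
  exact (Option.some.inj hb).symm

theorem appr_appJoin {G₁ G₂ : List Bool → List Bool} {R A B : S} (m₁ : MonoG G₁) (m₂ : MonoG G₂)
    (h₁ : Appr G₁ R A) (h₂ : Appr G₂ R B) : Appr (appJoin G₁ G₂) R (join A B) := by
  refine appr_growG (fun s t hst m b h => ?_) (fun M m b h => ?_) fun m => ?_
  · split_ifs at h ⊢ with hm
    · exact getElem?_mono (m₁ hst) h
    · exact getElem?_mono (m₂ hst) h
  · simp only [join]
    split_ifs at h ⊢ with hm
    · exact h₁.getElem h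
    · exact h₂.getElem h
  · split_ifs with hm
    · obtain ⟨M, hM⟩ := h₁.total (m / 2 + 1)
      exact ⟨M, by simp; omega⟩
    · obtain ⟨M, hM⟩ := h₂.total (m / 2 + 1)
      exact ⟨M, by simp; omega⟩

/-- Reading fixed positions of the oracle. -/
def appIdx (q : ℕ → ℕ) : List Bool → List Bool := growG fun s m => s[q m]?

theorem monoG_appIdx (q : ℕ → ℕ) : MonoG (appIdx q) :=
  monoG_growG fun _ _ hst _ _ h => getElem?_mono hst h

theorem appr_appIdx (q : ℕ → ℕ) {R X : S} (h : ∀ m, X m = R (q m)) : Appr (appIdx q) R X := by
  refine appr_growG (fun _ _ hst _ _ hb => getElem?_mono hst hb) (fun M m b hb => ?_) fun m =>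
    ⟨q m + 1, by rw [getElem?_pref R (Nat.lt_succ_self _)]; rfl⟩
  obtain ⟨hm, -⟩ := List.getElem?_eq_some_iff.1 hb
  rw [length_pref] at hm
  rw [getElem?_pref R hm] at hb
  rw [h m, Option.some.inj hb]

/-- Positions of the three parameters in the oracle of `red_word_bit`. -/
def pIdx (c : Fin 3) (m : ℕ) : ℕ := if c = 0 then 4 * m else if c = 1 then 8 * m + 2 else 8 * m + 6

/-- One letter. -/
def stepG (e1 e2 : Fn) (c : Fin 3) (G : List Bool → List Bool) : List Bool → List Bool :=
  appFn e2 (appJoin (appIdx fun m => 4 * m + 1) (appFn e1 (appJoin (appIdx (pIdx c)) G)))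

/-- A word. -/
def wordG (e1 e2 : Fn) : List (Fin 3) → List Bool → List Bool
  | [] => appIdx fun m => 4 * m + 3
  | c :: u => stepG e1 e2 c (wordG e1 e2 u)

theorem monoG_wordG (e1 e2 : Fn) : ∀ u, MonoG (wordG e1 e2 u)
  | [] => monoG_appIdx _
  | _ :: u => monoG_appFn _ (monoG_appJoin (monoG_appIdx _)
      (monoG_appFn _ (monoG_appJoin (monoG_appIdx _) (monoG_wordG e1 e2 u))))

theorem appr_wordG {Ph : Fin 3 → S} {Qh : S} {e1 e2 : Fn} {U : List (Fin 3) → S}
    (hcons : ∀ c u, ∃ M, Out e1 (join (Ph c) (U u)) M ∧ Out e2 (join Qh M) (U (c :: u))) :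
    ∀ u, Appr (wordG e1 e2 u)
      (join (join (Ph 0) (join (Ph 1) (Ph 2))) (join Qh (U []))) (U u)
  | [] => appr_appIdx _ fun m => by
      have e : (4 * m + 3) % 2 = 1 := by omega
      have e1 : (4 * m + 3) / 2 = 2 * m + 1 := by omega
      have e2 : (2 * m + 1) / 2 = m := by omega
      simp [join, e, e1, e2]
  | c :: u => by
    obtain ⟨M, hM, hU⟩ := hcons c u
    have hp : Appr (appIdx (pIdx c))
        (join (join (Ph 0) (join (Ph 1) (Ph 2))) (join Qh (U []))) (Ph c) := by
      refine appr_appIdx _ fun m => ?_
      fin_cases c
      · have e1 : 4 * m / 2 = 2 * m := by omega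
        simp [pIdx, join, e1, show 4 * m % 2 = 0 by omega]
      · have e1 : (8 * m + 2) / 2 = 4 * m + 1 := by omega
        have e2 : (4 * m + 1) / 2 = 2 * m := by omega
        simp [pIdx, join, e1, e2, show (8 * m + 2) % 2 = 0 by omega,
          show (4 * m + 1) % 2 = 1 by omega]
      · have e1 : (8 * m + 6) / 2 = 4 * m + 3 := by omega
        have e2 : (4 * m + 3) / 2 = 2 * m + 1 := by omega
        have e3 : (2 * m + 1) / 2 = m := by omega
        simp [pIdx, join, e1, e2, e3, show (8 * m + 6) % 2 = 0 by omega,
          show (4 * m + 3) % 2 = 1 by omega]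
    have hq : Appr (appIdx fun m => 4 * m + 1)
        (join (join (Ph 0) (join (Ph 1) (Ph 2))) (join Qh (U []))) Qh := by
      refine appr_appIdx _ fun m => ?_
      have e1 : (4 * m + 1) / 2 = 2 * m := by omega
      simp [join, e1, show (4 * m + 1) % 2 = 1 by omega]
    have m1 := monoG_appJoin (monoG_appIdx (pIdx c)) (monoG_wordG e1 e2 u)
    exact appr_appFn (monoG_appJoin (monoG_appIdx _) (monoG_appFn _ m1))
      (appr_appJoin (monoG_appIdx _) (monoG_appFn _ m1) hq
        (appr_appFn m1 (appr_appJoin (monoG_appIdx _) (monoG_wordG e1 e2 u) hp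
          (appr_wordG hcons u)) hM)) hU

/-! ### Computability -/

section Computable

variable {σ : Type*} [Primcodable σ]

theorem computable_growG {f : σ → List Bool → ℕ → Option Bool}
    (hf : Computable fun p : (σ × List Bool) × ℕ => f p.1.1 p.1.2 p.2) :
    Computable₂ fun a s => growG (f a) s := by
  have hrec : Computable fun p : σ × List Bool =>
      Nat.rec (motive := fun _ => List Bool) []
        (fun L l => bif decide (l.length = L) then
          Option.casesOn (motive := fun _ => List Bool) (f p.1 p.2 L) l (fun b => l ++ [b])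
          else l) p.2.length := by
    refine Computable.nat_rec (Computable.list_length.comp Computable.snd)
      (Computable.const ([] : List Bool)) (h := fun (p : σ × List Bool) (q : ℕ × List Bool) =>
        bif decide (q.2.length = q.1) then
          Option.casesOn (motive := fun _ => List Bool) (f p.1 p.2 q.1) q.2 (fun b => q.2 ++ [b])
          else q.2) ?_
    refine Computable.cond ?_ ?_ (Computable.snd.comp Computable.snd)
    · exact Primrec.eq.decide.to_comp.comp
        (Computable.list_length.comp (Computable.snd.comp Computable.snd))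
        (Computable.fst.comp Computable.snd)
    · refine Computable.option_casesOn
        (hf.comp (Computable.fst.pair (Computable.fst.comp Computable.snd)))
        (Computable.snd.comp Computable.snd) ?_
      exact Computable.list_concat.comp
        (Computable.snd.comp (Computable.snd.comp Computable.fst)) Computable.snd
  refine hrec.of_eq fun p => ?_
  simp only [growG]
  generalize p.2.length = L
  induction L with
  | zero => rfl
  | succ L ih =>
    show (bif _ then _ else _) = _
    rw [grow, ih]
    by_cases h : (grow (f p.1 p.2) L).length = L <;> cases f p.1 p.2 L <;> simp [h]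

theorem computable_appIdx {q : σ → ℕ → ℕ} (hq : Computable₂ q) :
    Computable₂ fun a s => appIdx (q a) s :=
  computable_growG (f := fun a s m => s[q a m]?) (Computable.list_getElem?.comp
    (Computable.snd.comp Computable.fst)
    (hq.comp (Computable.fst.comp Computable.fst) Computable.snd))

theorem computable_appFn (e : Fn) {G : σ → List Bool → List Bool} (hG : Computable₂ G) :
    Computable₂ fun a s => appFn e (G a) s :=
  computable_growG (f := fun a s m => e.val (G a s) m) (e.computable_val.comp
    (hG.comp (Computable.fst.comp Computable.fst) (Computable.snd.comp Computable.fst))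
    Computable.snd)

theorem computable_appJoin {G₁ G₂ : σ → List Bool → List Bool} (h₁ : Computable₂ G₁)
    (h₂ : Computable₂ G₂) : Computable₂ fun a s => appJoin (G₁ a) (G₂ a) s := by
  refine computable_growG
    (f := fun a s m => if m % 2 = 0 then (G₁ a s)[m / 2]? else (G₂ a s)[m / 2]?) ?_
  have hdiv : Computable fun p : (σ × List Bool) × ℕ => p.2 / 2 :=
    (Primrec.nat_div.comp Primrec.snd (Primrec.const 2)).to_comp
  have hmod : Computable fun p : (σ × List Bool) × ℕ => decide (p.2 % 2 = 0) :=
    Primrec.eq.decide.to_comp.comp
      (Primrec.nat_mod.comp Primrec.snd (Primrec.const 2)).to_comp (Computable.const 0)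
  refine (Computable.cond hmod
    (Computable.list_getElem?.comp
      (h₁.comp (Computable.fst.comp Computable.fst) (Computable.snd.comp Computable.fst)) hdiv)
    (Computable.list_getElem?.comp
      (h₂.comp (Computable.fst.comp Computable.fst) (Computable.snd.comp Computable.fst))
      hdiv)).of_eq fun p => ?_
  by_cases h : p.2 % 2 = 0 <;> simp [h]

end Computable

attribute [local irreducible] growG appFn appJoin appIdx

theorem computable₂_pIdx : Computable₂ pIdx := by
  refine (Computable.cond
    (Primrec.eq.decide.to_comp.comp Computable.fst (Computable.const (0 : Fin 3)))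
    (Primrec.nat_mul.comp (Primrec.const 4) Primrec.snd).to_comp
    (Computable.cond (Primrec.eq.decide.to_comp.comp Computable.fst (Computable.const (1 : Fin 3)))
      (Primrec.nat_add.comp (Primrec.nat_mul.comp (Primrec.const 8) Primrec.snd)
        (Primrec.const 2)).to_comp
      (Primrec.nat_add.comp (Primrec.nat_mul.comp (Primrec.const 8) Primrec.snd)
        (Primrec.const 6)).to_comp)).of_eq fun p => ?_
  by_cases h : p.1 = 0 <;> by_cases h' : p.1 = 1 <;> simp [pIdx, h, h']

theorem computable_stepG (e1 e2 : Fn) : Computable fun p : (Fin 3 × List Bool) × List Bool =>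
    stepG e1 e2 p.1.1 (fun _ => p.1.2) p.2 := by
  have hG : Computable₂ fun (p : Fin 3 × List Bool) (_ : List Bool) => p.2 :=
    Computable.snd.comp Computable.fst
  have hI : Computable₂ fun (p : Fin 3 × List Bool) m => pIdx p.1 m :=
    computable₂_pIdx.comp (Computable.fst.comp Computable.fst) Computable.snd
  have hQ : Computable₂ fun (_ : Fin 3 × List Bool) m => 4 * m + 1 :=
    (Primrec.nat_add.comp (Primrec.nat_mul.comp (Primrec.const 4) Primrec.snd)
      (Primrec.const 1)).to_comp
  exact (computable_appFn e2 (G := fun (p : Fin 3 × List Bool) => appJoin (appIdx fun m => 4 * m + 1)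
      (appFn e1 (appJoin (appIdx (pIdx p.1)) fun _ => p.2)))
    (computable_appJoin (G₁ := fun _ : Fin 3 × List Bool => appIdx fun m => 4 * m + 1)
      (G₂ := fun p => appFn e1 (appJoin (appIdx (pIdx p.1)) fun _ => p.2)) (computable_appIdx hQ)
      (computable_appFn e1 (G := fun (p : Fin 3 × List Bool) =>
          appJoin (appIdx (pIdx p.1)) fun _ => p.2)
        (computable_appJoin (G₁ := fun p : Fin 3 × List Bool => appIdx (pIdx p.1))
          (G₂ := fun p _ => p.2) (computable_appIdx hI) hG))))

theorem stepG_apply (e1 e2 : Fn) (c : Fin 3) (G : List Bool → List Bool) (s : List Bool) :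
    stepG e1 e2 c G s = stepG e1 e2 c (fun _ => G s) s := by
  simp only [stepG]; unfold appFn appJoin growG; rfl

attribute [local irreducible] stepG

theorem computable_wordG (e1 e2 : Fn) : Computable₂ fun u s => wordG e1 e2 u s := by
  have hidx : Computable fun s : List Bool => appIdx (fun m => 4 * m + 3) s :=
    (computable_appIdx (σ := Unit) (q := fun _ m => 4 * m + 3)
      (Primrec.nat_add.comp (Primrec.nat_mul.comp (Primrec.const 4) Primrec.snd)
        (Primrec.const 3)).to_comp).comp (Computable.const ()) Computable.id
  have hrec : Computable fun p : List (Fin 3) × List Bool =>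
      Nat.rec (motive := fun _ => List Bool) (appIdx (fun m => 4 * m + 3) p.2)
        (fun j l => stepG e1 e2 ((p.1.reverse[j]?).getD 0) (fun _ => l) p.2) p.1.length := by
    refine Computable.nat_rec (Computable.list_length.comp Computable.fst)
      (hidx.comp Computable.snd) (h := fun (p : List (Fin 3) × List Bool) (q : ℕ × List Bool) =>
        stepG e1 e2 ((p.1.reverse[q.1]?).getD 0) (fun _ => q.2) p.2) ?_
    have hc : Computable fun x : (List (Fin 3) × List Bool) × ℕ × List Bool =>
        (x.1.1.reverse[x.2.1]?).getD 0 := Computable.option_getD (Computable.list_getElem?.comp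
      (Computable.list_reverse.comp (Computable.fst.comp Computable.fst))
      (Computable.fst.comp Computable.snd)) (Computable.const 0)
    have harg : Computable fun x : (List (Fin 3) × List Bool) × ℕ × List Bool =>
        (((x.1.1.reverse[x.2.1]?).getD 0, x.2.2), x.1.2) :=
      Computable.pair (Computable.pair hc (Computable.snd.comp Computable.snd))
        (Computable.snd.comp Computable.fst)
    exact Computable.comp
      (f := fun p : (Fin 3 × List Bool) × List Bool => stepG e1 e2 p.1.1 (fun _ => p.1.2) p.2)
      (g := fun x : (List (Fin 3) × List Bool) × ℕ × List Bool =>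
        (((x.1.1.reverse[x.2.1]?).getD 0, x.2.2), x.1.2)) (computable_stepG e1 e2) harg
  refine hrec.of_eq fun p => ?_
  obtain ⟨u, s⟩ := p
  have key : ∀ (v : List (Fin 3)) (L : List (Fin 3)), v.reverse <+: L →
      Nat.rec (motive := fun _ => List Bool) (appIdx (fun m => 4 * m + 3) s)
        (fun j l => stepG e1 e2 ((L[j]?).getD 0) (fun _ => l) s) v.length = wordG e1 e2 v s := by
    intro v
    induction v with
    | nil => intro L _; rfl
    | cons c v ih =>
      intro L hL
      obtain ⟨r, rfl⟩ := hL
      show stepG e1 e2 _ (fun _ => Nat.rec _ _ v.length) s = _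
      rw [ih _ (by simp), wordG, stepG_apply e1 e2 c]
      simp
  exact key u u.reverse List.prefix_rfl

theorem computable_word : Computable word := by
  have hrec : Computable fun n : ℕ => Nat.rec (motive := fun _ => List (Fin 3)) [2]
      (fun m w => bif decide ((m + 1) % 2 = 1) then 1 :: w ++ [1] else 2 :: 0 :: w ++ [0, 2])
      (n - 1) := by
    refine Computable.nat_rec (Primrec.nat_sub.comp Primrec.id (Primrec.const 1)).to_comp
      (Computable.const [2]) (h := fun (_ : ℕ) (q : ℕ × List (Fin 3)) =>
        bif decide ((q.1 + 1) % 2 = 1) then 1 :: q.2 ++ [1] else 2 :: 0 :: q.2 ++ [0, 2]) ?_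
    have hw : Computable fun p : ℕ × (ℕ × List (Fin 3)) => p.2.2 :=
      Computable.snd.comp Computable.snd
    refine Computable.cond (Primrec.eq.decide.to_comp.comp
      (Primrec.nat_mod.comp (Primrec.succ.comp (Primrec.fst.comp Primrec.snd))
        (Primrec.const 2)).to_comp (Computable.const 1)) ?_ ?_
    · exact Computable.list_append.comp (Computable.list_cons.comp (Computable.const 1) hw)
        (Computable.const [1])
    · exact Computable.list_append.comp (Computable.list_cons.comp (Computable.const 2)
        (Computable.list_cons.comp (Computable.const 0) hw)) (Computable.const [0, 2])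
  refine (Computable.cond (Primrec.eq.decide.to_comp.comp Computable.id (Computable.const 0))
    (Computable.const ([] : List (Fin 3))) hrec).of_eq fun n => ?_
  rcases n with _ | n
  · rfl
  simp only [id, Nat.succ_ne_zero, decide_false, cond_false, Nat.add_sub_cancel]
  induction n with
  | zero => rfl
  | succ n ih =>
    show (bif _ then _ else _) = _
    rw [word, ih]
    by_cases h : (n + 1) % 2 = 1 <;> simp [h]

/-- The iterates of the two functionals along the words are uniformly computable. -/
theorem red_word_bit (Ph : Fin 3 → S) (Qh : S) (e1 e2 : Fn) (i : ℕ) (U : List (Fin 3) → S)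
    (hcons : ∀ c u, ∃ M, Out e1 (join (Ph c) (U u)) M ∧ Out e2 (join Qh M) (U (c :: u))) :
    Red (fun n => U (word n) i) (join (join (Ph 0) (join (Ph 1) (Ph 2))) (join Qh (U []))) := by
  refine ⟨⟨fun s n => (wordG e1 e2 (word n) s)[i]?, fun s t hst n b hb =>
      getElem?_mono (monoG_wordG e1 e2 (word n) hst) hb,
    Computable.list_getElem?.comp
      ((computable_wordG e1 e2).comp (computable_word.comp Computable.snd) Computable.fst)
      (Computable.const i)⟩, fun n => ?_⟩
  have h := appr_wordG hcons (word n)
  obtain ⟨M, hM⟩ := h.total (i + 1)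
  refine ⟨M, ?_⟩
  show (wordG e1 e2 (word n) (pref _ M))[i]? = _
  rw [h.sound M, getElem?_pref _ (by omega)]

/-! ### The extension search -/

/-- A string for the join of two finite strings. -/
def ileave (a v : List Bool) : List Bool :=
  grow (fun m => if m % 2 = 0 then a[m / 2]? else v[m / 2]?) (2 * (a.length + v.length))

/-- One candidate of the search: an extension of `u` and a stage. -/
def cand (φ : Fn) (u s : List Bool) (n k : ℕ) : Option Bool :=
  (Encodable.decode (α := List Bool) (Nat.unpair k).1).bind fun v =>
    φ.val (ileave (s.take (Nat.unpair k).2) (u ++ v)) n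

/-- The first successful candidate below `L`. -/
def searchTo (φ : Fn) (u s : List Bool) (n : ℕ) : ℕ → Option Bool
  | 0 => none
  | L + 1 => (searchTo φ u s n L).elim (cand φ u s n L) some

theorem searchTo_some (φ : Fn) (u s : List Bool) (n : ℕ) : ∀ {L b},
    searchTo φ u s n L = some b → ∃ k < L, cand φ u s n k = some b
  | 0, _, h => by simp [searchTo] at h
  | L + 1, b, h => by
    cases hS : searchTo φ u s n L with
    | none => simp [searchTo, hS] at h; exact ⟨L, Nat.lt_succ_self _, h⟩
    | some c =>
      simp [searchTo, hS] at h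
      obtain ⟨k, hk, he⟩ := searchTo_some φ u s n hS
      exact ⟨k, by omega, h ▸ he⟩

theorem searchTo_mono (φ : Fn) (u s : List Bool) (n : ℕ) {L L' : ℕ} (h : L ≤ L') {b : Bool}
    (hb : searchTo φ u s n L = some b) : searchTo φ u s n L' = some b := by
  induction L', h using Nat.le_induction with
  | base => exact hb
  | succ m _ ih => simp [searchTo, ih]

theorem searchTo_isSome (φ : Fn) (u s : List Bool) (n : ℕ) {L k : ℕ} {b : Bool} (h : k < L)
    (hb : cand φ u s n k = some b) : (searchTo φ u s n L).isSome := by
  cases hS : searchTo φ u s n k with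
  | none =>
    rw [searchTo_mono φ u s n (show k + 1 ≤ L by omega) (b := b) (by simp [searchTo, hS, hb])]
    rfl
  | some c =>
    rw [searchTo_mono φ u s n (show k ≤ L by omega) hS]
    rfl

theorem searchTo_congr (φ : Fn) (u : List Bool) {s t : List Bool} (hst : s <+: t) (n : ℕ) :
    ∀ {L : ℕ}, L ≤ s.length + 1 → searchTo φ u t n L = searchTo φ u s n L
  | 0, _ => rfl
  | L + 1, h => by
    have e : cand φ u t n L = cand φ u s n L := by
      obtain ⟨r, rfl⟩ := hst
      simp only [cand]
      rw [List.take_append_of_le_length (le_trans (Nat.unpair_right_le L) (by omega))]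
    rw [searchTo, searchTo, searchTo_congr φ u hst n (show L ≤ s.length + 1 by omega), e]

theorem computable_search (φ : Fn) (u : List Bool) :
    Computable₂ fun s n => searchTo φ u s n (s.length + 1) := by
  have hil : Computable₂ ileave := by
    have hf : Computable fun p : (List Bool × List Bool) × ℕ =>
        if p.2 % 2 = 0 then (p.1.1)[p.2 / 2]? else (p.1.2)[p.2 / 2]? := by
      have hd : Computable fun p : (List Bool × List Bool) × ℕ => p.2 / 2 :=
        (Primrec.nat_div.comp Primrec.snd (Primrec.const 2)).to_comp
      refine (Computable.cond (Primrec.eq.decide.to_comp.comp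
        (Primrec.nat_mod.comp Primrec.snd (Primrec.const 2)).to_comp (Computable.const 0))
        (Computable.list_getElem?.comp (Computable.fst.comp Computable.fst) hd)
        (Computable.list_getElem?.comp (Computable.snd.comp Computable.fst) hd)).of_eq fun p => ?_
      by_cases h : p.2 % 2 = 0 <;> simp [h]
    have harg : Computable fun p : ((List Bool × List Bool) × List Bool) × ℕ => (p.1.1, p.2) :=
      Computable.pair (Computable.fst.comp Computable.fst) Computable.snd
    have hf' : Computable fun p : ((List Bool × List Bool) × List Bool) × ℕ =>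
        if p.2 % 2 = 0 then (p.1.1.1)[p.2 / 2]? else (p.1.1.2)[p.2 / 2]? :=
      Computable.comp (f := fun p : (List Bool × List Bool) × ℕ =>
        if p.2 % 2 = 0 then (p.1.1)[p.2 / 2]? else (p.1.2)[p.2 / 2]?)
        (g := fun p : ((List Bool × List Bool) × List Bool) × ℕ => (p.1.1, p.2)) hf harg
    have hg := computable_growG (σ := List Bool × List Bool)
      (f := fun a _ m => if m % 2 = 0 then a.1[m / 2]? else a.2[m / 2]?) hf'
    have hlen : Computable fun p : List Bool × List Bool => (p.1 ++ p.2) ++ (p.1 ++ p.2) :=
      Computable.list_append.comp (Computable.list_append.comp Computable.fst Computable.snd)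
        (Computable.list_append.comp Computable.fst Computable.snd)
    refine (Computable₂.comp (f := fun (a : List Bool × List Bool) s =>
      growG (fun _ m => if m % 2 = 0 then a.1[m / 2]? else a.2[m / 2]?) s)
      (g := fun p => p) (h := fun p : List Bool × List Bool => (p.1 ++ p.2) ++ (p.1 ++ p.2))
      hg Computable.id hlen).of_eq fun p => ?_
    unfold growG ileave
    simp [two_mul, Nat.add_assoc]
  have htake : Computable₂ fun (s : List Bool) (m : ℕ) => s.take m := by
    refine ((computable_growG (σ := List Bool) (f := fun l _ m => l[m]?)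
      (Computable.list_getElem?.comp (Computable.fst.comp Computable.fst) Computable.snd)).comp
      Computable.fst (Primrec.list_map (Primrec.list_range.comp Primrec.snd)
        (g := fun (_ : List Bool × ℕ) (_ : ℕ) => true) (Primrec.const true).to₂).to_comp).of_eq
      fun p => ?_
    obtain ⟨s, m⟩ := p
    simp only [growG, List.length_map, List.length_range]
    induction m with
    | zero => rfl
    | succ m ih =>
      rw [grow, ih, List.take_add_one]
      rcases lt_or_ge m s.length with h | h
      · simp [h, Nat.min_eq_left h.le]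
      · rw [List.getElem?_eq_none h]
        simp
  have hcand : Computable fun p : (List Bool × ℕ) × ℕ => cand φ u p.1.1 p.1.2 p.2 := by
    have hdec : Computable fun p : (List Bool × ℕ) × ℕ =>
        Encodable.decode (α := List Bool) (Nat.unpair p.2).1 :=
      Computable.decode.comp (Computable.fst.comp (Computable.unpair.comp Computable.snd))
    have hstr : Computable fun x : ((List Bool × ℕ) × ℕ) × List Bool =>
        ileave (x.1.1.1.take (Nat.unpair x.1.2).2) (u ++ x.2) :=
      Computable₂.comp (f := ileave)
        (g := fun x : ((List Bool × ℕ) × ℕ) × List Bool => x.1.1.1.take (Nat.unpair x.1.2).2)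
        (h := fun x : ((List Bool × ℕ) × ℕ) × List Bool => u ++ x.2) hil
        (Computable₂.comp (f := fun (l : List Bool) (m : ℕ) => l.take m)
          (g := fun x : ((List Bool × ℕ) × ℕ) × List Bool => x.1.1.1)
          (h := fun x : ((List Bool × ℕ) × ℕ) × List Bool => (Nat.unpair x.1.2).2) htake
          (Computable.fst.comp (Computable.fst.comp Computable.fst))
          (Computable.snd.comp (Computable.unpair.comp (Computable.snd.comp Computable.fst))))
        (Computable.list_append.comp (Computable.const u) Computable.snd)
    have hval : Computable₂ fun (p : (List Bool × ℕ) × ℕ) (v : List Bool) =>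
        φ.val (ileave (p.1.1.take (Nat.unpair p.2).2) (u ++ v)) p.1.2 :=
      Computable₂.comp (f := φ.val)
        (g := fun x : ((List Bool × ℕ) × ℕ) × List Bool =>
          ileave (x.1.1.1.take (Nat.unpair x.1.2).2) (u ++ x.2))
        (h := fun x : ((List Bool × ℕ) × ℕ) × List Bool => x.1.1.2) φ.computable_val hstr
        (Computable.snd.comp (Computable.fst.comp Computable.fst))
    exact Computable.option_bind hdec hval
  have hrec : Computable fun p : List Bool × ℕ =>
      Nat.rec (motive := fun _ => Option Bool) none
        (fun L r => Option.casesOn (motive := fun _ => Option Bool) r (cand φ u p.1 p.2 L) some)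
        (p.1.length + 1) := by
    refine Computable.nat_rec (Computable.succ.comp (Computable.list_length.comp Computable.fst))
      (Computable.const none) (h := fun (p : List Bool × ℕ) (q : ℕ × Option Bool) =>
        Option.casesOn (motive := fun _ => Option Bool) q.2 (cand φ u p.1 p.2 q.1) some) ?_
    have harg : Computable fun x : (List Bool × ℕ) × ℕ × Option Bool => (x.1, x.2.1) :=
      Computable.pair Computable.fst (Computable.fst.comp Computable.snd)
    exact Computable.option_casesOn (Computable.snd.comp Computable.snd)
      (Computable.comp (f := fun p : (List Bool × ℕ) × ℕ => cand φ u p.1.1 p.1.2 p.2)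
        (g := fun x : (List Bool × ℕ) × ℕ × Option Bool => (x.1, x.2.1)) hcand harg)
      (Computable.option_some.comp Computable.snd)
  refine hrec.of_eq fun p => ?_
  show _ = searchTo φ u p.1 p.2 (p.1.length + 1)
  generalize p.1.length + 1 = L
  induction L with
  | zero => rfl
  | succ L ih =>
    show Option.casesOn (motive := fun _ => Option Bool) _ _ _ = _
    rw [searchTo, ih]
    cases searchTo φ u p.1 p.2 L <;> rfl

theorem ileave_pref {A Z : S} {a v : List Bool} (ha : a = pref A a.length)
    (hv : v = pref Z v.length) : ileave a v = pref (join A Z) (ileave a v).length := by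
  refine prefix_of_values (fun m b h => ?_) _
  simp only [join]
  split_ifs at h ⊢ with hm
  · obtain ⟨hl, -⟩ := List.getElem?_eq_some_iff.1 h
    rw [ha, getElem?_pref A hl] at h
    exact (Option.some.inj h).symm
  · obtain ⟨hl, -⟩ := List.getElem?_eq_some_iff.1 h
    rw [hv, getElem?_pref Z hl] at h
    exact (Option.some.inj h).symm

/-- A nonmeagre set of oracles can be replaced by a finite search. -/
theorem red_of_nonmeagre {X A : S} (h : ¬ IsMeagre {Z : S | Red X (join A Z)}) : Red X A := by
  obtain ⟨φ, hφ⟩ : ∃ φ, ¬ IsMeagre {Z : S | Out φ (join A Z) X} := by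
    by_contra hc
    push Not at hc
    exact h ((isMeagre_iUnion hc).mono fun Z ⟨φ, hz⟩ => Set.mem_iUnion.2 ⟨φ, hz⟩)
  set D := {Z : S | Out φ (join A Z) X}
  obtain ⟨x, hx⟩ : (interior (closure D)).Nonempty := by
    by_contra hc
    exact hφ (IsNowhereDense.isMeagre (Set.not_nonempty_iff_eq_empty.1 hc))
  obtain ⟨u, -, -, hu⟩ := exists_cyl_subset isOpen_interior (s := []) ⟨x, hx, rfl⟩ 0
  have hdense : ∀ w, u <+: w → ∃ Z ∈ D, Z ∈ cyl w := fun w hw => by
    obtain ⟨z, hz⟩ := cyl_nonempty w
    obtain ⟨Z, hZw, hZ⟩ := mem_closure_iff.1 (interior_subset (hu (cyl_mono hw hz)))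
      (cyl w) (isOpen_cyl w) hz
    exact ⟨Z, hZ, hZw⟩
  refine ⟨⟨fun s n => searchTo φ u s n (s.length + 1), fun s t hst n b hb => ?_,
    computable_search φ u⟩, fun n => ?_⟩
  · exact searchTo_mono φ u t n (Nat.succ_le_succ hst.length_le)
      (by rw [searchTo_congr φ u hst n le_rfl]; exact hb)
  obtain ⟨Z, hZ, hZu⟩ := hdense u List.prefix_rfl
  obtain ⟨M, hM⟩ := hZ n
  obtain ⟨v, hv⟩ := (show u <+: pref Z (max M u.length) from
    hZu ▸ pref_prefix Z (by simp))
  have hcand : cand φ u (pref A (Nat.pair (Encodable.encode v) M)) n
      (Nat.pair (Encodable.encode v) M) = some (X n) := by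
    have ht : (pref A (Nat.pair (Encodable.encode v) M)).take M = pref A M :=
      ((List.prefix_iff_eq_take.1 (pref_prefix A (Nat.right_le_pair _ _))).trans
        (by rw [length_pref])).symm
    simp only [cand, Nat.unpair_pair, Encodable.encodek, Option.bind_some, hv, ht]
    refine φ.mono ?_ hM
    have hl : M ≤ (ileave (pref A M) (pref Z (max M u.length))).length := by
      refine le_trans (le_of_eq (grow_full fun m hm => ?_).symm)
        (grow_prefix _ (show M ≤ _ by simp; omega)).length_le
      split_ifs <;> simp <;> omega
    rw [ileave_pref (A := A) (Z := Z) (by rw [length_pref]) (by rw [length_pref])]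
    exact pref_prefix _ hl
  set k := Nat.pair (Encodable.encode v) M
  refine ⟨k, ?_⟩
  obtain ⟨b, hb⟩ := Option.isSome_iff_exists.1
    (searchTo_isSome φ u (pref A k) n (show k < (pref A k).length + 1 by simp) hcand)
  show searchTo φ u (pref A k) n ((pref A k).length + 1) = _
  rw [hb]
  obtain ⟨j, hj, hc⟩ := searchTo_some φ u (pref A k) n hb
  obtain ⟨w, -, hw⟩ := Option.bind_eq_some_iff.1 hc
  obtain ⟨Z', hZ', hZw⟩ := hdense (u ++ w) (List.prefix_append u w)
  have hm2 : (Nat.unpair j).2 ≤ k := le_trans (Nat.unpair_right_le j) (by simp at hj; omega)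
  have ht : (pref A k).take (Nat.unpair j).2 = pref A (Nat.unpair j).2 :=
    ((List.prefix_iff_eq_take.1 (pref_prefix A hm2)).trans (by rw [length_pref])).symm
  rw [ht] at hw
  rw [hZ'.sound (ileave_pref (by rw [length_pref]) hZw.symm) hw]

end Vale.Agent.P327
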