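/-
P327: `G A ≤ A` for lifts `F`, `G` of an automorphism and its inverse.
-/
import Vale.Agent.P327.Box
import Vale.Agent.P327.Decode

namespace Vale.Agent.P327

open Set

/-- Decoding: `A` from the six images, at a good configuration. -/
theorem red_decode {H K : ℕ → S → S} {A : S} {i j j' m m' l l' : ℕ} {e1 e2 e3 e4 : Fn}
    {p0 : List Bool} {N : ℕ} (hp : p0.length = 2 * N) {t : List Bool} (hN : N < t.length + 1)
    {i1 i2 : ℕ} {b1 b2 v : Bool} (hv : t[Nat.pair N 0]? = some v) {w : W}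
    (hP : ∀ c, pp w c ∈ cyl (parList p0 N (t.length + 1) (code c).1 (code c).2))
    (hQ : w.2.1 ∈ cyl (parList p0 N (t.length + 1) false false)) (hX : w.2.2 ∈ cyl t)
    (hlawP : ∀ c u, Law H K A ((i, j, j', m, m', l, l'), (e1, e2, e3, e4))
        (pp w c, wapply (pp w) w.2.1 u w.2.2) ∧ Law H K A
        ((i, j, j', m, m', l, l'), (e1, e2, e3, e4))
        (pp w c, tog A (wapply (pp w) w.2.1 u (tog A w.2.2))))
    (hlawQ : ∀ u, Law H K A ((i, j, j', m, m', l, l'), (e1, e2, e3, e4))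
        (w.2.1, wapply (pp w) w.2.1 u w.2.2) ∧ Law H K A
        ((i, j, j', m, m', l, l'), (e1, e2, e3, e4))
        (w.2.1, tog A (wapply (pp w) w.2.1 u (tog A w.2.2))))
    (hsep : ∀ n, ∀ Z ∈ [wapply (pp w) w.2.1 (word n) w.2.2,
        tog A (wapply (pp w) w.2.1 (word n) (tog A w.2.2))],
      (∀ p (hp : p < t.length), p ≠ Nat.pair N 0 → Z p = t[p]) →
        H j Z i1 = xor b1 (xor (Z (Nat.pair N 0)) v) ∧
        H j' (tog A Z) i2 = xor b2 (xor (Z (Nat.pair N 0)) v)) :
    Red A (join (join (join (H i (pp w 0)) (join (H i (pp w 1)) (H i (pp w 2))))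
        (join (H i w.2.1) (H j w.2.2)))
      (join (join (H i (pp w 0)) (join (H i (pp w 1)) (H i (pp w 2))))
        (join (H i w.2.1) (H j' (tog A w.2.2))))) := by
  set P := pp w
  set Q := w.2.1
  set X := w.2.2
  set q := Nat.pair N 0
  have r1 := red_word_bit (fun c => H i (P c)) (H i Q) e1 e2 i1 (fun u => H j (wapply P Q u X))
    (fun c u => by
      refine ⟨H m (fop (P c) (wapply P Q u X)), (hlawP c u).1.1, ?_⟩
      have := (hlawQ (c :: u)).1.2.1
      simpa [wapply, dop, fop_fop] using this)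
  have r2 := red_word_bit (fun c => H i (P c)) (H i Q) e3 e4 i2
    (fun u => H j' (wapply P Q u (tog A X)))
    (fun c u => by
      refine ⟨H m' (fop (P c) (wapply P Q u (tog A X))), ?_, ?_⟩
      · simpa [tog_tog] using (hlawP c u).2.2.2.1
      · have := (hlawQ (c :: u)).2.2.2.2.1
        simpa [tog_tog, wapply, dop, fop_fop] using this)
  have r1' := r1.trans (red_join_left _
    (join (join (H i (P 0)) (join (H i (P 1)) (H i (P 2)))) (join (H i Q) (H j' (tog A X)))))
  have r2' := r2.trans (red_join_right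
    (join (join (H i (P 0)) (join (H i (P 1)) (H i (P 2)))) (join (H i Q) (H j X))) _)
  refine (Red.map2 (fun x y => xor (xor (xor b1 b2) (A 0)) (xor x y)) r1' r2').of_eventually
    t.length (fun n hn => ?_)
  have hpos : 0 < n := by omega
  have low : ∀ Y p, p < t.length → p ≠ q → wapply P Q (word n) Y p = Y p := by
    intro Y p hp' hpq
    have := wapply_low hp hN hP hQ (word n) Y (k := (Nat.unpair p).1)
      (by have := pair_ge_left (p := p); omega) (Nat.unpair p).2
    rw [Nat.pair_unpair] at this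
    rw [this]
    split_ifs with hk
    · have hs : (Nat.unpair p).2 ≠ 0 := by
        intro hs
        exact hpq (by rw [← Nat.pair_unpair p, hk, hs])
      have hsn : (Nat.unpair p).2 < n := by have := Nat.unpair_right_le p; omega
      rw [wperm_word_low n _ (by omega) hsn, Nat.pair_unpair]
    · rw [Nat.pair_unpair]
  have top : ∀ Y, wapply P Q (word n) Y q = Y (Nat.pair N n) := by
    intro Y
    have := wapply_low hp hN hP hQ (word n) Y (k := N) hN 0
    rwa [if_pos rfl, wperm_word_zero] at this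
  have hXt := mem_cyl.1 hX
  have s1 := (hsep n (wapply P Q (word n) X) (by simp [P, Q, X])
    (fun p hp' hpq => by rw [low X p hp' hpq, hXt p hp'])).1
  have s2 := (hsep n (tog A (wapply P Q (word n) (tog A X))) (by simp [P, Q, X])
    (fun p hp' hpq => by
      simp only [tog, low _ p hp' hpq, Bool.xor_assoc, Bool.xor_self, Bool.xor_false,
        hXt p hp'])).2
  rw [tog_tog] at s2
  rw [s1, s2, top X]
  simp only [tog, top, Nat.unpair_pair, q]
  cases b1 <;> cases b2 <;> cases v <;> cases A 0 <;> cases A n <;> cases X (Nat.pair N n) <;> rfl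

/-- The good configurations are comeagre in the parameter box. -/
theorem ae_imp {α β : Type*} [TopologicalSpace α] [TopologicalSpace β] {V : Set α} {f : α → β}
    {U B : Set β} (hf : ∀ {M : Set β}, IsMeagre M → IsMeagre (f ⁻¹' M)) (hU : ∀ w ∈ V, f w ∈ U)
    (h : IsMeagre (U \ B)) : IsMeagre (V \ f ⁻¹' B) :=
  IsMeagre.mono (show V \ f ⁻¹' B ⊆ f ⁻¹' (U \ B) from fun w hw => ⟨hU w hw.1, hw.2⟩) (hf h)

theorem isMeagre_diff_forall {α : Type*} [TopologicalSpace α] {ι : Type*} [Countable ι]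
    {V : Set α} {B : ι → Set α} (h : ∀ i, IsMeagre (V \ B i)) : IsMeagre (V \ ⋂ i, B i) := by
  refine IsMeagre.mono ?_ (isMeagre_iUnion h)
  intro w hw
  simp only [mem_sdiff, mem_iInter, not_forall] at hw
  obtain ⟨i, hi⟩ := hw.2
  exact mem_iUnion.2 ⟨i, hw.1, hi⟩

theorem red_inv {F G : S → S} (h : IsAuto F G) (A : S) : Red (G A) A := by
  obtain ⟨H, K, hH, hK, hcov, hinv⟩ := exists_cover h
  obtain ⟨⟨⟨i, j, j', m, m', l, l'⟩, e1, e2, e3, e4⟩, p0, x0, N, hp, hx, hlaw, hPt, hXt⟩ :=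
    exists_box h hH hK hcov hinv A
  simp only at hPt hXt
  set L : Set (S × S) := {z | Law H K A ((i, j, j', m, m', l, l'), (e1, e2, e3, e4)) z}
  have hmX : ∀ {B : Set S}, MeasurableSet B → (∀ z ∈ L, z.2 ∈ B) → IsMeagre (cyl x0 \ B) := by
    intro B hB hsub
    refine isMeagre_diff_of_prod (isOpen_cyl p0) (cyl_nonempty p0) (isOpen_cyl x0)
      hB.baireMeasurableSet (IsMeagre.mono ?_ hlaw)
    exact fun z hz => ⟨hz.1, fun hL => hz.2 (hsub z hL)⟩
  have hB1 : IsMeagre (cyl x0 \ {X | K l (H j X) = X}) :=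
    hmX (measurableSet_eqS ((hK l).comp (hH j)) measurable_id) (fun z hz => hz.2.2.2.2.1)
  have hB2 : IsMeagre (cyl x0 \ {X | tog A (K l' (H j' (tog A X))) = X}) :=
    hmX (measurableSet_eqS ((measurable_tog A).comp ((hK l').comp ((hH j').comp
      (measurable_tog A)))) measurable_id) (fun z hz => by
        simp only [mem_ofPred_eq, hz.2.2.2.2.2, tog_tog])
  set q := Nat.pair N 0
  have hxq : x0.length ≤ q := hx.trans (Nat.left_le_pair N 0)
  obtain ⟨t1, i1, b1, ht1, -, hs1⟩ :=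
    exists_sep (hH j) (K l) (List.prefix_refl x0) q hxq 0 hB1
  obtain ⟨t, i2, b2, ht, hqt, hs2⟩ := exists_sep ((hH j').comp (measurable_tog A))
    (fun Y => tog A (K l' Y)) ht1 q hxq (q + 1) hB2
  obtain ⟨v, hv⟩ : ∃ v, t[q]? = some v := ⟨_, List.getElem?_eq_getElem (by omega)⟩
  have hN : N < t.length + 1 := by have := Nat.left_le_pair N 0; omega
  set par := fun x y => parList p0 N (t.length + 1) x y
  set V : Set W := (cyl (par true false) ×ˢ cyl (par false true) ×ˢ cyl (par true true)) ×ˢ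
    cyl (par false false) ×ˢ cyl t with hV
  have hVo : IsOpen V := ((isOpen_cyl _).prod ((isOpen_cyl _).prod (isOpen_cyl _))).prod
    ((isOpen_cyl _).prod (isOpen_cyl _))
  have hVn : V.Nonempty := ((cyl_nonempty _).prod ((cyl_nonempty _).prod (cyl_nonempty _))).prod
    ((cyl_nonempty _).prod (cyl_nonempty _))
  have hVP : ∀ w ∈ V, ∀ c, pp w c ∈ cyl (par (code c).1 (code c).2) := by
    intro w hw c
    fin_cases c
    · exact hw.1.1
    · exact hw.1.2.1
    · exact hw.1.2.2
  have hVQ : ∀ w ∈ V, w.2.1 ∈ cyl (par false false) := fun w hw => hw.2.1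
  have hVx : ∀ w ∈ V, ∀ u, wapply (pp w) w.2.1 u w.2.2 ∈ cyl x0 ∧
      tog A (wapply (pp w) w.2.1 u (tog A w.2.2)) ∈ cyl x0 := fun w hw u =>
    wapply_mem_cyl hp hN hx (hVP w hw) (hVQ w hw) u A _
      (cyl_mono (ht1.trans ht) hw.2.2)
  set E : Set S := {Z | (Z ∈ cyl t → H j Z i1 = b1 ∧ H j (flipAt q Z) i1 = !b1) ∧
    (flipAt q Z ∈ cyl t →
      H j (flipAt q Z) i1 = b1 ∧ H j (flipAt q (flipAt q Z)) i1 = !b1) ∧
    (Z ∈ cyl t → H j' (tog A Z) i2 = b2 ∧ H j' (tog A (flipAt q Z)) i2 = !b2) ∧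
    (flipAt q Z ∈ cyl t → H j' (tog A (flipAt q Z)) i2 = b2 ∧
      H j' (tog A (flipAt q (flipAt q Z))) i2 = !b2)} with hE
  have hEc : IsMeagre (univ \ E) := by
    have a1 : IsMeagre (cyl t \ {X | H j X i1 = b1 ∧ H j (flipAt q X) i1 = !b1}) :=
      IsMeagre.mono (sdiff_subset_sdiff_left (cyl_mono ht)) hs1
    refine IsMeagre.mono ?_ ((a1.union (isMeagre_preimage_flipAt q a1)).union
      (hs2.union (isMeagre_preimage_flipAt q hs2)))
    intro Z hZ
    have := hZ.2
    simp only [hE, mem_ofPred_eq, mem_union, mem_preimage, mem_sdiff,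
      Function.comp_apply] at this ⊢
    tauto
  set Good : Set W := (⋂ z : Fin 3 × List (Fin 3),
      (fun w : W => (pp w z.1, wapply (pp w) w.2.1 z.2 w.2.2)) ⁻¹' L) ∩
    (⋂ z : Fin 3 × List (Fin 3),
      (fun w : W => (pp w z.1, tog A (wapply (pp w) w.2.1 z.2 (tog A w.2.2)))) ⁻¹' L) ∩
    (⋂ u : List (Fin 3), (fun w : W => (w.2.1, wapply (pp w) w.2.1 u w.2.2)) ⁻¹' L) ∩
    (⋂ u : List (Fin 3),
      (fun w : W => (w.2.1, tog A (wapply (pp w) w.2.1 u (tog A w.2.2)))) ⁻¹' L) ∩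
    (⋂ u : List (Fin 3), (fun w : W => wapply (pp w) w.2.1 u w.2.2) ⁻¹' E) ∩
    (⋂ u : List (Fin 3),
      (fun w : W => tog A (wapply (pp w) w.2.1 u (tog A w.2.2))) ⁻¹' E) with hGood
  have hGm : IsMeagre (V \ Good) := by
    simp only [hGood, sdiff_inter]
    refine ((((IsMeagre.union ?_ ?_).union ?_).union ?_).union ?_).union ?_
    · exact isMeagre_diff_forall fun z => ae_imp (U := cyl p0 ×ˢ cyl x0) (isMeagre_preimage_word z.1 z.2)
        (fun w hw => ⟨cyl_parList_subset _ _ _ _ _ (hVP w hw z.1), (hVx w hw z.2).1⟩) hlaw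
    · exact isMeagre_diff_forall fun z => ae_imp (U := cyl p0 ×ˢ cyl x0) (isMeagre_preimage_wordT A z.1 z.2)
        (fun w hw => ⟨cyl_parList_subset _ _ _ _ _ (hVP w hw z.1), (hVx w hw z.2).2⟩) hlaw
    · exact isMeagre_diff_forall fun u => ae_imp (U := cyl p0 ×ˢ cyl x0) (isMeagre_preimage_wordQ u)
        (fun w hw => ⟨cyl_parList_subset _ _ _ _ _ (hVQ w hw), (hVx w hw u).1⟩) hlaw
    · exact isMeagre_diff_forall fun u => ae_imp (U := cyl p0 ×ˢ cyl x0) (isMeagre_preimage_wordQT A u)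
        (fun w hw => ⟨cyl_parList_subset _ _ _ _ _ (hVQ w hw), (hVx w hw u).2⟩) hlaw
    · exact isMeagre_diff_forall fun u =>
        ae_imp (isMeagre_preimage_wapply u) (fun w _ => mem_univ _) hEc
    · exact isMeagre_diff_forall fun u => ae_imp
        (fun hM => isMeagre_preimage_wapply_tog A u (isMeagre_preimage_tog A hM))
        (fun w _ => mem_univ _) hEc
  have hTr : ENM ((({P | F P = H i P} ×ˢ {P | F P = H i P} ×ˢ {P | F P = H i P}) ×ˢ
      {P | F P = H i P} ×ˢ
      {X | F X = H j X ∧ F (tog A X) = H j' (tog A X)}) : Set W) V := by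
    have hp' : ∀ x y, ENM {P | F P = H i P} (cyl (par x y)) := fun x y =>
      hPt.mono Subset.rfl (cyl_parList_subset _ _ _ _ _)
    have hx' := hXt.mono Subset.rfl (cyl_mono (ht1.trans ht))
    exact ((hp' _ _).prod ((hp' _ _).prod (hp' _ _) (isOpen_cyl _) (isOpen_cyl _))
        (isOpen_cyl _) ((isOpen_cyl _).prod (isOpen_cyl _))).prod
      ((hp' _ _).prod hx' (isOpen_cyl _) (isOpen_cyl _))
      ((isOpen_cyl _).prod ((isOpen_cyl _).prod (isOpen_cyl _)))
      ((isOpen_cyl _).prod (isOpen_cyl _))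
  have hnm := hTr.not_isMeagre_inter hVo hVn hGm
  refine red_of_nonmeagre (fun hm0 => hnm (IsMeagre.mono ?_ (isMeagre_preimage_enc hm0)))
  rintro w ⟨⟨⟨⟨ha, hb, hc⟩, hq, hX1, hX2⟩, hwV⟩, hwG⟩
  simp only [hGood, mem_inter_iff, mem_iInter, mem_preimage] at hwG
  obtain ⟨⟨⟨⟨⟨g1, g2⟩, g3⟩, g4⟩, g5⟩, g6⟩ := hwG
  have key := red_decode (H := H) (K := K) (A := A) (i1 := i1) (i2 := i2) (b1 := b1) (b2 := b2)
    hp hN hv (hVP w hwV) (hVQ w hwV) hwV.2.2
    (fun c u => ⟨g1 (c, u), g2 (c, u)⟩) (fun u => ⟨g3 u, g4 u⟩)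
    (fun n Z hZ hag => by
      have hZE : Z ∈ E := by
        simp only [List.mem_cons, List.not_mem_nil, or_false] at hZ
        rcases hZ with rfl | rfl
        · exact g5 _
        · exact g6 _
      obtain ⟨c1, c2, c3, c4⟩ := hZE
      exact ⟨sep_reads hv c1 c2 hag, sep_reads (g := fun Y => H j' (tog A Y)) hv c3 c4 hag⟩)
  show Red (G A) (join A (enc w))
  have hfin : Red A (join (F A) (F (enc w))) := by
    have hw' : Red (F (enc w)) (join (F A) (F (enc w))) := red_join_right _ _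
    have hPa : ∀ c, Red (H i (pp w c)) (join (F A) (F (enc w))) := by
      intro c
      have : F (pp w c) = H i (pp w c) := by
        fin_cases c
        · exact ha
        · exact hb
        · exact hc
      rw [← this]
      exact ((h.mapF _ _).2 (red_pp w c)).trans hw'
    have hQ' : Red (H i w.2.1) (join (F A) (F (enc w))) := by
      rw [← hq]; exact ((h.mapF _ _).2 (red_fst_snd w).1).trans hw'
    have hX' : Red (F w.2.2) (join (F A) (F (enc w))) :=
      ((h.mapF _ _).2 (red_fst_snd w).2).trans hw'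
    have hT' : Red (H j' (tog A w.2.2)) (join (F A) (F (enc w))) := by
      rw [← hX2]
      exact (((h.mapF _ _).2 (red_tog A w.2.2)).trans (h.join_le _ _)).trans
        (red_join hX' (red_join_left _ _))
    have hP3 := red_join (hPa 0) (red_join (hPa 1) (hPa 2))
    exact key.trans (red_join (red_join hP3 (red_join hQ' (hX1 ▸ hX')))
      (red_join hP3 (red_join hQ' hT')))
  exact (((h.mapG _ _).2 hfin).trans (h.symm.join_le _ _)).trans
    (red_join ((h.gf A).1.trans (red_join_left _ _))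
      ((h.gf (enc w)).1.trans (red_join_right _ _)))

end Vale.Agent.P327
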