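/-
P327: every automorphism of the Turing degrees fixes every degree.
-/
import Vale.Agent.P327.Degrees
import Vale.Agent.P327.Bridge
import Vale.Agent.P327.Main

namespace Vale.Agent.P327

/-- Lift form: an order isomorphism up to equivalence fixes every real up to equivalence. -/
theorem lift_fixes (F : S → S) (hF : ∀ A B, Le (F A) (F B) ↔ Le A B)
    (hsurj : ∀ B, ∃ A, Le (F A) B ∧ Le B (F A)) (A : S) : Le (F A) A ∧ Le A (F A) := by
  choose G hG using hsurj
  have mapF : ∀ X Y, Red (F X) (F Y) ↔ Red X Y := fun X Y => by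
    rw [← le_iff_red, ← le_iff_red]; exact hF X Y
  have fg : ∀ X, Equiv' (F (G X)) X := fun X => ⟨red_of_le (hG X).1, red_of_le (hG X).2⟩
  have h : IsAuto F G := by
    refine ⟨mapF, fun X Y => ?_, fun X => ?_, fg⟩
    · rw [← mapF]
      exact ⟨fun k => ((fg X).2.trans k).trans (fg Y).1,
        fun k => ((fg X).1.trans k).trans (fg Y).2⟩
    · exact ⟨(mapF _ _).1 (fg (F X)).1, (mapF _ _).1 (fg (F X)).2⟩
  have h1 : Red (F A) A := red_inv h.symm A
  have h2 : Red A (F A) := ((fg A).2).trans ((mapF _ _).2 (red_inv h A))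
  exact ⟨le_of_red h1, le_of_red h2⟩

/-- Rigidity. -/
theorem deg_rigid (π : Deg ≃ Deg) (hπ : ∀ a b, Deg.le (π a) (π b) ↔ Deg.le a b) (a : Deg) :
    π a = a := by
  induction a using Quotient.ind with | _ A => ?_
  obtain ⟨F, hF⟩ : ∃ F : S → S, ∀ X, π (Quotient.mk _ X) = Quotient.mk _ (F X) :=
    ⟨fun X => (π (Quotient.mk _ X)).out, fun X => (Quotient.out_eq _).symm⟩
  rw [hF]
  refine Quotient.sound (lift_fixes F (fun X Y => ?_) (fun B => ?_) A)
  · exact (show Deg.le (Quotient.mk _ (F X)) (Quotient.mk _ (F Y)) ↔ _ by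
      rw [← hF, ← hF]; exact hπ _ _)
  · refine ⟨(π.symm (Quotient.mk _ B)).out, ?_⟩
    have e := ((hF (π.symm (Quotient.mk _ B)).out).symm.trans
      (congrArg π (Quotient.out_eq _))).trans (π.apply_symm_apply _)
    exact Quotient.exact e

end Vale.Agent.P327
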